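import Vale.Agent.P141.Defs

/-! Nonnegative bump inputs for which the trilinear Hilbert transform is a plain integral. -/

open MeasureTheory Filter Topology
open scoped ENNReal NNReal SchwartzMap ContDiff

noncomputable section

namespace Vale.Agent.P141

def bump : ContDiffBump (0 : ℝ) where
  rIn := 1 / 16
  rOut := 1 / 8
  rIn_pos := by norm_num
  rIn_lt_rOut := by norm_num

lemma bump_zero {u : ℝ} (h : 1 / 8 ≤ |u|) : bump u = 0 :=
  bump.zero_of_le_dist (by simpa [bump] using h)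

lemma bump_one {u : ℝ} (h : |u| ≤ 1 / 16) : bump u = 1 :=
  bump.one_of_mem_closedBall (by simpa [bump] using h)

/-- A sum of bumps at the integer points of `B`. -/
def bumps (B : Finset ℤ) (y : ℝ) : ℝ := ∑ z ∈ B, bump (y - z)

lemma bumps_nonneg (B : Finset ℤ) (y : ℝ) : 0 ≤ bumps B y :=
  Finset.sum_nonneg fun _ _ => bump.nonneg

lemma near_unique {y : ℝ} {z w : ℤ} (hz : |y - z| < 1 / 8) (hw : |y - w| < 1 / 8) : z = w := by
  rw [abs_lt] at hz hw
  have h1 : ((z - w : ℤ) : ℝ) < (1 : ℤ) := by push_cast; linarith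
  have h2 : ((-1 : ℤ) : ℝ) < ((z - w : ℤ) : ℝ) := by push_cast; linarith
  have h1' := Int.cast_lt.1 h1
  have h2' := Int.cast_lt.1 h2
  omega

lemma exists_near {B : Finset ℤ} {y : ℝ} (h : bumps B y ≠ 0) :
    ∃ z ∈ B, |y - z| < 1 / 8 := by
  by_contra hc
  push Not at hc
  exact h (Finset.sum_eq_zero fun z hz => bump_zero (hc z hz))

lemma bumps_le_one (B : Finset ℤ) (y : ℝ) : bumps B y ≤ 1 := by
  by_cases h : bumps B y = 0
  · rw [h]; exact zero_le_one
  obtain ⟨z, hz, hzy⟩ := exists_near h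
  rw [bumps, Finset.sum_eq_single z]
  · exact bump.le_one
  · intro w _ hwz
    refine bump_zero (le_of_not_gt fun hw => hwz (near_unique hw hzy))
  · exact fun h => (h hz).elim

lemma bumps_eq_one {B : Finset ℤ} {y : ℝ} {z : ℤ} (hz : z ∈ B) (hzy : |y - z| ≤ 1 / 16) :
    bumps B y = 1 := by
  refine le_antisymm (bumps_le_one B y) ?_
  calc (1 : ℝ) = bump (y - z) := (bump_one hzy).symm
    _ ≤ bumps B y := Finset.single_le_sum (f := fun w : ℤ => bump (y - w))
        (fun _ _ => bump.nonneg) hz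

lemma bumps_contDiff (B : Finset ℤ) : ContDiff ℝ ∞ fun y => (bumps B y : ℂ) := by
  refine Complex.ofRealCLM.contDiff.comp (?_ : ContDiff ℝ ∞ (bumps B))
  exact ContDiff.sum fun z _ => bump.contDiff.comp (contDiff_id.sub contDiff_const)

lemma bumps_compact (B : Finset ℤ) : HasCompactSupport fun y => (bumps B y : ℂ) := by
  refine HasCompactSupport.intro (K := ⋃ z ∈ B, Metric.closedBall (z : ℝ) (1 / 8))
    (B.finite_toSet.isCompact_biUnion fun z _ => isCompact_closedBall _ _) ?_
  intro y hy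
  simp only [Complex.ofReal_eq_zero]
  by_contra h
  obtain ⟨z, hz, hzy⟩ := exists_near h
  exact hy (Set.mem_biUnion (x := z) (Finset.mem_coe.2 hz)
    (by simpa [Real.dist_eq] using hzy.le))

/-- The Schwartz function attached to `B`. -/
def bumpsS (B : Finset ℤ) : 𝓢(ℝ, ℂ) := (bumps_compact B).toSchwartzMap (bumps_contDiff B)

lemma bumpsS_apply (B : Finset ℤ) (y : ℝ) : bumpsS B y = (bumps B y : ℂ) := rfl

lemma eLpNorm_bumpsS_le (B : Finset ℤ) {p : ℝ≥0∞} (_hp : p ≠ 0) :
    eLpNorm (bumpsS B) p volume ≤ (B.card : ℝ≥0∞) ^ p.toReal⁻¹ := by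
  set U : Set ℝ := ⋃ z ∈ B, Metric.closedBall (z : ℝ) (1 / 8)
  have hU : volume U ≤ B.card := by
    refine (measure_biUnion_finset_le B _).trans ?_
    calc ∑ z ∈ B, volume (Metric.closedBall (z : ℝ) (1 / 8)) ≤ ∑ z ∈ B, (1 : ℝ≥0∞) := by
          refine Finset.sum_le_sum fun z _ => ?_
          rw [Real.volume_closedBall]
          exact ENNReal.ofReal_le_one.2 (by norm_num)
      _ = B.card := by simp
  calc eLpNorm (bumpsS B) p volume
      ≤ eLpNorm (U.indicator fun _ => (1 : ℝ)) p volume := by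
        refine eLpNorm_mono_real fun y => ?_
        rw [bumpsS_apply, Complex.norm_real, Real.norm_eq_abs, abs_of_nonneg (bumps_nonneg B y)]
        by_cases hy : y ∈ U
        · rw [Set.indicator_of_mem hy]; exact bumps_le_one B y
        · rw [Set.indicator_of_notMem hy]
          refine le_of_eq ?_
          by_contra h
          obtain ⟨z, hz, hzy⟩ := exists_near h
          exact hy (Set.mem_biUnion (x := z) (Finset.mem_coe.2 hz)
            (by simpa [Real.dist_eq] using hzy.le))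
    _ ≤ ‖(1 : ℝ)‖ₑ * volume U ^ (1 / p.toReal) := eLpNorm_indicator_const_le _ p
    _ ≤ (B.card : ℝ≥0∞) ^ p.toReal⁻¹ := by
        rw [enorm_one, one_mul, one_div]
        exact ENNReal.rpow_le_rpow hU (by positivity)

/-- The discrete data give a lower bound for the transform of three bump functions. -/
theorem exists_witness {q : ℕ} (hq : 0 < q) (S : Finset (ℤ × ℤ)) (μ : ℕ) (A : ℕ → Finset ℤ)
    (hμ : ∀ x : ℤ, (S.filter fun p => p.1 = x).card ≤ μ)
    (hA : ∀ k : ℕ, 1 ≤ k → k ≤ 3 → (∀ p ∈ S, p.1 - (k : ℤ) * p.2 ∈ A k) ∧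
      (∀ z ∈ A k, -3 * (q : ℤ) ≤ z ∧ z < q))
    {p₁ p₂ p₃ r : ℝ≥0∞} (h₁ : p₁ ≠ 0) (h₂ : p₂ ≠ 0) (h₃ : p₃ ≠ 0) (hr : r ≠ 0) (hr' : r ≠ ⊤) (hr1 : r ≤ 1) :
    ∃ (f₁ f₂ f₃ : 𝓢(ℝ, ℂ)) (g : ℝ → ℂ), IsTHT f₁ f₂ f₃ g ∧
      eLpNorm f₁ p₁ volume ≤ ((A 1).card : ℝ≥0∞) ^ p₁.toReal⁻¹ ∧
      eLpNorm f₂ p₂ volume ≤ ((A 2).card : ℝ≥0∞) ^ p₂.toReal⁻¹ ∧
      eLpNorm f₃ p₃ volume ≤ ((A 3).card : ℝ≥0∞) ^ p₃.toReal⁻¹ ∧
      ENNReal.ofReal ((S.card * (μ : ℝ) ^ (r.toReal - 1) / 50) ^ r.toReal⁻¹ / (650 * q))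
        ≤ eLpNorm g r volume := by
  classical
  set T₀ : ℤ := 8 * q
  let B : ℕ → Finset ℤ := fun k => (A k).image fun z => z - (k : ℤ) * T₀
  have hBcard : ∀ k, (B k).card ≤ (A k).card := fun k => Finset.card_image_le
  let P : ℝ → ℝ → ℝ := fun x t =>
    bumps (B 1) (x - t) * bumps (B 2) (x - 2 * t) * bumps (B 3) (x - 3 * t)
  let F : ℝ → ℝ → ℝ := fun x t => P x t / t
  have hqR : (1 : ℝ) ≤ q := by exact_mod_cast hq
  -- the support in `t`
  have hsupp : ∀ x t, P x t ≠ 0 → 3 * (q : ℝ) ≤ t ∧ t ≤ 13 * q := by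
    intro x t h
    simp only [P, ne_eq, mul_eq_zero, not_or] at h
    obtain ⟨z, hz, hzy⟩ := exists_near h.1.1
    obtain ⟨w, hw, hwy⟩ := exists_near h.1.2
    simp only [B, Finset.mem_image] at hz hw
    obtain ⟨z', hz', rfl⟩ := hz
    obtain ⟨w', hw', rfl⟩ := hw
    obtain ⟨a1, a2⟩ := (hA 1 (by norm_num) (by norm_num)).2 z' hz'
    obtain ⟨b1, b2⟩ := (hA 2 (by norm_num) (by norm_num)).2 w' hw'
    have a1' : ((-3 * (q : ℤ) : ℤ) : ℝ) ≤ z' := Int.cast_le.2 a1
    have a2' : ((z' + 1 : ℤ) : ℝ) ≤ ((q : ℤ) : ℝ) := Int.cast_le.2 (by omega)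
    have b1' : ((-3 * (q : ℤ) : ℤ) : ℝ) ≤ w' := Int.cast_le.2 b1
    have b2' : ((w' + 1 : ℤ) : ℝ) ≤ ((q : ℤ) : ℝ) := Int.cast_le.2 (by omega)
    rw [abs_lt] at hzy hwy
    simp only [T₀] at hzy hwy
    push_cast at a1' a2' b1' b2' hzy hwy
    constructor <;> linarith
  have hPnn : ∀ x t, 0 ≤ P x t := fun x t =>
    mul_nonneg (mul_nonneg (bumps_nonneg _ _) (bumps_nonneg _ _)) (bumps_nonneg _ _)
  have hFnn : ∀ x t, 0 ≤ F x t := by
    intro x t
    by_cases h : P x t = 0
    · simp [F, h]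
    · exact div_nonneg (hPnn x t) (by linarith [(hsupp x t h).1])
  have hPcont : ∀ x, Continuous (P x) := by
    intro x
    have hb : ∀ B' : Finset ℤ, Continuous (bumps B') := fun B' =>
      continuous_finsetSum _ fun z _ => bump.continuous.comp (continuous_id.sub continuous_const)
    exact (((hb _).comp (by fun_prop)).mul ((hb _).comp (by fun_prop))).mul
      ((hb _).comp (by fun_prop))
  have hFint : ∀ x, Integrable (F x) := by
    intro x
    have hz : ∀ t, t ∉ Set.Icc (3 * (q : ℝ)) (13 * q) → F x t = 0 := by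
      intro t ht
      by_contra h
      exact ht (hsupp x t fun hp => h (by simp [F, hp]))
    have hi : IntegrableOn (F x) (Set.Icc (3 * (q : ℝ)) (13 * q)) := by
      refine ContinuousOn.integrableOn_compact isCompact_Icc ?_
      refine (hPcont x).continuousOn.div continuousOn_id fun t ht => ?_
      have := ht.1
      simp only [ne_eq]
      linarith
    exact hi.integrable_of_forall_notMem_eq_zero hz
  let g : ℝ → ℂ := fun x => ((∫ t, F x t : ℝ) : ℂ)
  refine ⟨bumpsS (B 1), bumpsS (B 2), bumpsS (B 3), g, ?_, ?_, ?_, ?_, ?_⟩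
  · intro x
    refine tendsto_const_nhds.congr' ?_
    have e1 : Set.Ioo (0 : ℝ) 1 ∈ 𝓝[>] (0 : ℝ) := Ioo_mem_nhdsGT one_pos
    have e2 : Set.Ioi (13 * (q : ℝ)) ∈ (atTop : Filter ℝ) := Ioi_mem_atTop _
    filter_upwards [prod_mem_prod e1 e2] with ⟨ε, R⟩ ⟨hε, hR⟩
    simp only [Set.mem_Ioo, Set.mem_Ioi] at hε hR
    have hfun : (fun t : ℝ => bumpsS (B 1) (x - t) * bumpsS (B 2) (x - 2 * t) *
        bumpsS (B 3) (x - 3 * t) / (t : ℂ)) = fun t => ((F x t : ℝ) : ℂ) := by
      funext t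
      simp [bumpsS_apply, F, P]
    show g x = Trunc _ _ _ ε R x
    rw [Trunc, hfun]
    rw [setIntegral_eq_integral_of_forall_compl_eq_zero]
    · exact integral_ofReal.symm
    · intro t ht
      simp only [Set.mem_ofPred_eq, not_and, not_lt] at ht
      by_contra h
      have hp : P x t ≠ 0 := fun hp => h (by simp [F, hp])
      obtain ⟨ha, hb⟩ := hsupp x t hp
      rw [abs_of_nonneg (by linarith)] at ht
      linarith [ht (by linarith)]
  · exact (eLpNorm_bumpsS_le _ h₁).trans
      (ENNReal.rpow_le_rpow (by exact_mod_cast hBcard 1) (by positivity))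
  · exact (eLpNorm_bumpsS_le _ h₂).trans
      (ENNReal.rpow_le_rpow (by exact_mod_cast hBcard 2) (by positivity))
  · exact (eLpNorm_bumpsS_le _ h₃).trans
      (ENNReal.rpow_le_rpow (by exact_mod_cast hBcard 3) (by positivity))
  · set X := S.image Prod.fst
    set N : ℤ → ℕ := fun x => (S.filter fun p => p.1 = x).card
    set ρ := r.toReal
    have hρ : 0 < ρ := ENNReal.toReal_pos hr hr'
    have hρ1 : ρ ≤ 1 := by
      have := ENNReal.toReal_mono ENNReal.one_ne_top hr1
      simpa using this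
    -- pointwise bound near a point of `X`
    have hlow : ∀ x ∈ X, ∀ y ∈ Metric.closedBall (x : ℝ) (1 / 100),
        ENNReal.ofReal ((N x : ℝ) / (650 * q)) ≤ ‖g y‖ₑ := by
      intro x _ y hxy
      rw [Metric.mem_closedBall, Real.dist_eq, abs_le] at hxy
      let c : ℤ × ℤ → ℝ := fun p => ((p.2 + T₀ : ℤ) : ℝ)
      let J : ℤ × ℤ → Set ℝ := fun p => Set.Icc (c p - 1 / 100) (c p + 1 / 100)
      have hone : ∀ p ∈ S.filter (fun p => p.1 = x), ∀ t ∈ J p,
          1 / (13 * (q : ℝ)) ≤ F y t := by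
        intro p hp t ht
        obtain ⟨hpS, hpx⟩ := Finset.mem_filter.1 hp
        simp only [J, c, Set.mem_Icc] at ht
        have hm : ∀ k : ℕ, 1 ≤ k → k ≤ 3 → bumps (B k) (y - k * t) = 1 := by
          intro k hk1 hk3
          refine bumps_eq_one (z := p.1 - (k : ℤ) * p.2 - (k : ℤ) * T₀)
            (Finset.mem_image.2 ⟨_, (hA k hk1 hk3).1 p hpS, rfl⟩) ?_
          have hk3' : (k : ℝ) ≤ 3 := by exact_mod_cast hk3
          have hk0 : (0 : ℝ) ≤ k := by positivity
          rw [hpx]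
          push_cast at ht ⊢
          rw [abs_le]
          constructor <;> nlinarith
        have e1 := hm 1 le_rfl (by norm_num)
        have e2 := hm 2 (by norm_num) (by norm_num)
        have e3 := hm 3 (by norm_num) le_rfl
        push_cast at e1 e2 e3
        rw [one_mul] at e1
        have hP : P y t = 1 := by simp [P, e1, e2, e3]
        obtain ⟨ha, hb⟩ := hsupp y t (by rw [hP]; exact one_ne_zero)
        simp only [F, hP]
        exact div_le_div_of_nonneg_left zero_le_one (by linarith) hb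
      have hdisj : (↑(S.filter fun p => p.1 = x) : Set (ℤ × ℤ)).Pairwise (Function.onFun Disjoint J) := by
        intro a ha b hb hab
        simp only [Finset.coe_filter, Set.mem_ofPred_eq] at ha hb
        show Disjoint (J a) (J b)
        rw [Set.disjoint_left]
        intro t h1 h2
        simp only [J, c, Set.mem_Icc] at h1 h2
        refine hab (Prod.ext (ha.2.trans hb.2.symm) ?_)
        have := near_unique (y := t) (z := a.2 + T₀) (w := b.2 + T₀)
          (by rw [abs_lt]; constructor <;> linarith) (by rw [abs_lt]; constructor <;> linarith)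
        omega
      have hint : (N x : ℝ) / (650 * q) ≤ ∫ t, F y t := by
        refine le_trans ?_ (setIntegral_le_integral
          (s := ⋃ p ∈ S.filter (fun p => p.1 = x), J p) (hFint y)
          (Eventually.of_forall (hFnn y)))
        rw [integral_biUnion_finset _ (fun p _ => measurableSet_Icc) hdisj
          (fun p _ => (hFint y).integrableOn)]
        refine le_trans ?_ (Finset.card_nsmul_le_sum _ _ (1 / (650 * (q : ℝ))) fun p hp => ?_)
        · simp only [N, nsmul_eq_mul, mul_one_div]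
          exact le_rfl
        · refine le_trans (le_of_eq ?_) (setIntegral_ge_of_const_le_real measurableSet_Icc
            (by simp) (hone p hp) (hFint y).integrableOn)
          rw [Measure.real, Real.volume_Icc, ENNReal.toReal_ofReal (by norm_num)]
          field_simp
          ring
      have h0 : 0 ≤ ∫ t, F y t := integral_nonneg (hFnn y)
      rw [← ofReal_norm, Complex.norm_real, Real.norm_eq_abs, abs_of_nonneg h0]
      exact ENNReal.ofReal_le_ofReal hint
    have hbig : ∑ x ∈ X, ENNReal.ofReal (((N x : ℝ) / (650 * q)) ^ ρ * (1 / 50)) ≤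
        ∫⁻ y, ‖g y‖ₑ ^ ρ := by
      calc ∑ x ∈ X, ENNReal.ofReal (((N x : ℝ) / (650 * q)) ^ ρ * (1 / 50))
          ≤ ∑ x ∈ X, ∫⁻ y in Metric.closedBall (x : ℝ) (1 / 100), ‖g y‖ₑ ^ ρ := by
            refine Finset.sum_le_sum fun x hx => ?_
            refine le_trans (le_of_eq ?_) (setLIntegral_mono'
              (f := fun _ => ENNReal.ofReal (((N x : ℝ) / (650 * q)) ^ ρ))
              Metric.isClosed_closedBall.measurableSet fun y hy => ?_)
            · rw [setLIntegral_const, Real.volume_closedBall,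
                ← ENNReal.ofReal_mul (by positivity)]
              norm_num
            · rw [← ENNReal.ofReal_rpow_of_nonneg (by positivity) hρ.le]
              exact ENNReal.rpow_le_rpow (hlow x hx y hy) hρ.le
        _ = ∫⁻ y in ⋃ x ∈ X, Metric.closedBall (x : ℝ) (1 / 100), ‖g y‖ₑ ^ ρ := by
            refine (lintegral_biUnion_finset ?_
              (fun x _ => Metric.isClosed_closedBall.measurableSet) _).symm
            intro a _ b _ hab
            show Disjoint (Metric.closedBall (a : ℝ) (1 / 100))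
              (Metric.closedBall (b : ℝ) (1 / 100))
            rw [Set.disjoint_left]
            intro y ha hb
            rw [Metric.mem_closedBall, Real.dist_eq] at ha hb
            exact hab (near_unique (y := y) (by linarith) (by linarith))
        _ ≤ ∫⁻ y, ‖g y‖ₑ ^ ρ := setLIntegral_le_lintegral _ _
    have hcount : (S.card : ℝ) * (μ : ℝ) ^ (ρ - 1) ≤ ∑ x ∈ X, (N x : ℝ) ^ ρ := by
      have hS' : (S.card : ℝ) = ∑ x ∈ X, (N x : ℝ) := by
        rw [Finset.card_eq_sum_card_image Prod.fst S]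
        push_cast
        rfl
      rw [hS', Finset.sum_mul]
      refine Finset.sum_le_sum fun x hx => ?_
      have hN : 0 < N x := by
        obtain ⟨p, hp, rfl⟩ := Finset.mem_image.1 hx
        exact Finset.card_pos.2 ⟨p, Finset.mem_filter.2 ⟨hp, rfl⟩⟩
      calc (N x : ℝ) * (μ : ℝ) ^ (ρ - 1) ≤ (N x : ℝ) * (N x : ℝ) ^ (ρ - 1) :=
            mul_le_mul_of_nonneg_left (Real.rpow_le_rpow_of_nonpos (by exact_mod_cast hN)
              (Nat.cast_le.2 (hμ x)) (by linarith)) (by positivity)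
        _ = (N x : ℝ) ^ ρ := by
            rw [← Real.rpow_one_add' (by positivity) (by linarith), add_sub_cancel]
    rw [eLpNorm_eq_lintegral_rpow_enorm_toReal hr hr', one_div (r.toReal)]
    refine le_trans ?_ (ENNReal.rpow_le_rpow hbig (inv_nonneg.2 hρ.le))
    rw [← ENNReal.ofReal_sum_of_nonneg (fun _ _ => by positivity),
      ENNReal.ofReal_rpow_of_nonneg (Finset.sum_nonneg fun _ _ => by positivity) (by positivity)]
    refine ENNReal.ofReal_le_ofReal ?_
    have e : ∑ x ∈ X, ((N x : ℝ) / (650 * q)) ^ ρ * (1 / 50) =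
        ((∑ x ∈ X, (N x : ℝ) ^ ρ) / 50) * ((650 * (q : ℝ))⁻¹) ^ ρ := by
      rw [Finset.sum_div, Finset.sum_mul]
      refine Finset.sum_congr rfl fun x _ => ?_
      rw [div_eq_mul_inv (N x : ℝ), Real.mul_rpow (by positivity) (by positivity)]
      ring
    have h1 : 0 ≤ (∑ x ∈ X, (N x : ℝ) ^ ρ) / 50 :=
      div_nonneg (Finset.sum_nonneg fun x _ => Real.rpow_nonneg (Nat.cast_nonneg _) _) (by norm_num)
    have h2 : (0 : ℝ) ≤ (650 * (q : ℝ))⁻¹ := by positivity
    rw [e, Real.mul_rpow h1 (Real.rpow_nonneg h2 _),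
      Real.rpow_rpow_inv h2 hρ.ne', ← div_eq_mul_inv]
    gcongr

end Vale.Agent.P141
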