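import Mathlib

/-!
A finite set of vectors in `(ℤ × ℤ) ^ n`, compressed into a short interval by a linear functional
modulo a prime, with the images under the three projections kept small.
-/

namespace Vale.Agent.P141

open Finset

/-- The number of functionals `φ` on `(ZMod q) ^ n` killing a fixed nonzero vector. -/
lemma card_kill_le {q n : ℕ} [Fact q.Prime] (v : Fin n → ZMod q) (hv : v ≠ 0) :
    (univ.filter fun φ : Fin n → ZMod q => ∑ i, φ i * v i = 0).card * q ≤ q ^ n := by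
  classical
  obtain ⟨i, hi⟩ := Function.ne_iff.1 hv
  simp only [Pi.zero_apply] at hi
  have h := Finset.card_le_card_of_injOn
    (f := fun φ : Fin n → ZMod q => fun j : {j : Fin n // j ≠ i} => φ j.1)
    (s := univ.filter fun φ : Fin n → ZMod q => ∑ i, φ i * v i = 0) (t := univ)
    (fun _ _ => mem_univ _) ?_
  · have hc : (univ : Finset ({j : Fin n // j ≠ i} → ZMod q)).card = q ^ (n - 1) := by
      simp [Fintype.card_subtype_compl]
    rw [hc] at h
    have hn : n = (n - 1) + 1 := by have := i.pos; omega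
    calc _ ≤ q ^ (n - 1) * q := Nat.mul_le_mul_right _ h
      _ = q ^ n := by rw [← pow_succ, ← hn]
  · intro φ hφ ψ hψ heq
    simp only [coe_filter, mem_univ, true_and, Set.mem_ofPred_eq] at hφ hψ
    have hj : ∀ j, j ≠ i → φ j = ψ j := fun j hj => congrFun heq ⟨j, hj⟩
    rw [Finset.sum_eq_add_sum_sdiff_singleton_of_mem (mem_univ i)] at hφ hψ
    have hs : ∑ x ∈ univ \ {i}, φ x * v x = ∑ x ∈ univ \ {i}, ψ x * v x := by
      refine Finset.sum_congr rfl fun x hx => ?_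
      rw [hj x (by simpa using hx)]
    rw [hs, ← hψ, add_left_inj] at hφ
    funext j
    rcases eq_or_ne j i with rfl | h
    · exact mul_right_cancel₀ hi hφ
    · exact hj j h

/-- The lifts to `[-3q, q)` of a set of residues. -/
def lifts (q : ℕ) (R : Finset (ZMod q)) : Finset ℤ :=
  (R ×ˢ Finset.range 4).image fun p => (p.1.val : ℤ) - (p.2 : ℤ) * q

lemma card_lifts (q : ℕ) (R : Finset (ZMod q)) : (lifts q R).card ≤ 4 * R.card := by
  refine Finset.card_image_le.trans_eq ?_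
  simp [Finset.card_product, mul_comm]

lemma lifts_bound {q : ℕ} [NeZero q] {R : Finset (ZMod q)} {z : ℤ} (hz : z ∈ lifts q R) :
    -3 * (q : ℤ) ≤ z ∧ z < q := by
  simp only [lifts, mem_image, mem_product, mem_range] at hz
  obtain ⟨⟨r, j⟩, ⟨-, hj⟩, rfl⟩ := hz
  have h1 : (r.val : ℤ) < q := by exact_mod_cast r.val_lt
  have h2 : (0 : ℤ) ≤ r.val := by positivity
  have h3 : (j : ℤ) ≤ 3 := by exact_mod_cast Nat.lt_succ_iff.1 hj
  have h4 : (0 : ℤ) ≤ j := by positivity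
  constructor <;> nlinarith

lemma mem_lifts {q : ℕ} [NeZero q] {R : Finset (ZMod q)} {z : ℤ}
    (hR : (z : ZMod q) ∈ R) (h1 : -3 * (q : ℤ) ≤ z) (h2 : z < q) : z ∈ lifts q R := by
  simp only [lifts, mem_image, mem_product, mem_range]
  have hv : (((z : ZMod q)).val : ℤ) = z % (q : ℤ) := ZMod.val_intCast z
  have hq : (0 : ℤ) < q := by exact_mod_cast NeZero.pos q
  have hd : z % (q : ℤ) + (q : ℤ) * (z / q) = z := Int.emod_add_mul_ediv z q
  have hm0 := Int.emod_nonneg z hq.ne'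
  have hm1 := Int.emod_lt_of_pos z hq
  have ha : -3 ≤ z / (q : ℤ) := by
    by_contra h
    push Not at h
    have : z / (q : ℤ) ≤ -4 := by omega
    nlinarith
  have hb : z / (q : ℤ) ≤ 0 := by
    by_contra h
    push Not at h
    nlinarith
  obtain ⟨j, hj⟩ := Int.eq_ofNat_of_zero_le (show 0 ≤ -(z / (q : ℤ)) by omega)
  refine ⟨((z : ZMod q), j), ⟨hR, by omega⟩, ?_⟩
  show (((z : ZMod q)).val : ℤ) - (j : ℤ) * q = z
  rw [hv, ← hj]
  linarith [hd, mul_comm (z / (q : ℤ)) (q : ℤ)]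

lemma sum_card_filter_and {α β : Type*} [Fintype β] (s : Finset α) (P : α → Prop)
    [DecidablePred P] (Q : β → α → Prop) [∀ b, DecidablePred (Q b)] :
    ∑ φ, (s.filter fun y => P y ∧ Q φ y).card =
      ∑ y ∈ s with P y, (univ.filter fun φ => Q φ y).card := by
  simp only [← Finset.filter_filter, Finset.card_filter _ (s.filter P)]
  rw [Finset.sum_comm]
  simp only [Finset.card_filter]

/-- Compression of a finite set of vectors of `(x, t)` pairs. -/
theorem exists_hashed {n : ℕ} (T : Finset (Fin n → ℤ × ℤ)) (hT : T.Nonempty) (K₀ μ : ℕ)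
    (hK : ∀ u ∈ T, ∀ i, (u i).1.natAbs ≤ K₀ ∧ (u i).2.natAbs ≤ K₀)
    (hμ : ∀ ξ : Fin n → ℤ, (T.filter fun u => (fun i => (u i).1) = ξ).card ≤ μ) :
    ∃ (q : ℕ) (S : Finset (ℤ × ℤ)) (A : ℕ → Finset ℤ),
      0 < q ∧
      q ≤ 4 * (2 * K₀ + 1) * ((T.image fun u i => (u i).1).card + μ) ∧
      T.card ≤ 2 * S.card ∧
      (∀ p ∈ S, 0 ≤ p.1 ∧ p.1 < q ∧ 0 ≤ p.2 ∧ p.2 < q) ∧
      (∀ x : ℤ, (S.filter fun p => p.1 = x).card ≤ μ) ∧
      (∀ k : ℕ, 1 ≤ k → k ≤ 3 → (∀ p ∈ S, p.1 - (k : ℤ) * p.2 ∈ A k) ∧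
        (A k).card ≤ 4 * (T.image fun u i => (u i).1 - (k : ℤ) * (u i).2).card ∧
        (∀ z ∈ A k, -3 * (q : ℤ) ≤ z ∧ z < q)) := by
  classical
  set Ξ := T.image fun u i => (u i).1
  have hΞ : 0 < Ξ.card := (hT.image _).card_pos
  have hM : 2 * (Ξ.card + μ) * (2 * K₀ + 1) ≠ 0 := by positivity
  obtain ⟨q, hqp, hq1, hq2⟩ := Nat.exists_prime_lt_and_le_two_mul _ hM
  have : Fact q.Prime := ⟨hqp⟩
  have hqN : 2 * (Ξ.card + μ) ≤ q :=
    (Nat.le_mul_of_pos_right _ (by omega)).trans hq1.le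
  have hqK : 2 * K₀ < q := by
    have : 1 * (2 * K₀ + 1) ≤ 2 * (Ξ.card + μ) * (2 * K₀ + 1) :=
      Nat.mul_le_mul_right _ (by omega)
    omega
  -- distinct small integer vectors stay distinct modulo `q`
  have hres : ∀ a b : Fin n → ℤ, (∀ i, (a i).natAbs ≤ K₀) → (∀ i, (b i).natAbs ≤ K₀) → a ≠ b →
      (fun i => (a i : ZMod q)) - (fun i => (b i : ZMod q)) ≠ 0 := by
    intro a b ha hb hne h
    refine hne (funext fun i => ?_)
    have h1 := congrFun (sub_eq_zero.1 h) i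
    simp only [ZMod.intCast_eq_intCast_iff_dvd_sub] at h1
    have h2 := Int.eq_zero_of_dvd_of_natAbs_lt_natAbs h1 (by
      have := Int.natAbs_sub_le (b i) (a i)
      have := ha i
      have := hb i
      simp only [Int.natAbs_natCast]
      omega)
    omega
  let L : (Fin n → ZMod q) → (Fin n → ℤ) → ZMod q := fun φ a => ∑ i, φ i * (a i : ZMod q)
  let X : (Fin n → ℤ × ℤ) → Fin n → ℤ := fun u i => (u i).1
  let Y : (Fin n → ℤ × ℤ) → Fin n → ℤ := fun u i => (u i).2
  let b₁ : (Fin n → ZMod q) → (Fin n → ℤ × ℤ) → ℕ := fun φ u =>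
    (Ξ.filter fun ξ => ξ ≠ X u ∧ L φ ξ = L φ (X u)).card
  let b₂ : (Fin n → ZMod q) → (Fin n → ℤ × ℤ) → ℕ := fun φ u =>
    (T.filter fun v => (X v = X u ∧ Y v ≠ Y u) ∧ L φ (Y v) = L φ (Y u)).card
  let coll : (Fin n → ZMod q) → ℕ := fun φ => ∑ u ∈ T, (b₁ φ u + b₂ φ u)
  have hkill : ∀ a b : Fin n → ℤ, (∀ i, (a i).natAbs ≤ K₀) → (∀ i, (b i).natAbs ≤ K₀) → a ≠ b →
      (univ.filter fun φ : Fin n → ZMod q => L φ a = L φ b).card * q ≤ q ^ n := by
    intro a b ha hb hne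
    refine le_trans (le_of_eq ?_) (card_kill_le _ (hres a b ha hb hne))
    congr 2
    refine Finset.filter_congr fun φ _ => ?_
    simp only [L, Pi.sub_apply, mul_sub, Finset.sum_sub_distrib, sub_eq_zero]
  have hXK : ∀ u ∈ T, ∀ i, (X u i).natAbs ≤ K₀ := fun u hu i => (hK u hu i).1
  have hYK : ∀ u ∈ T, ∀ i, (Y u i).natAbs ≤ K₀ := fun u hu i => (hK u hu i).2
  have hsum : (∑ φ, coll φ) * q ≤ T.card * (Ξ.card + μ) * q ^ n := by
    have e : ∑ φ, coll φ = ∑ u ∈ T,
        (∑ ξ ∈ Ξ with ξ ≠ X u, (univ.filter fun φ => L φ ξ = L φ (X u)).card +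
          ∑ v ∈ T with X v = X u ∧ Y v ≠ Y u,
            (univ.filter fun φ => L φ (Y v) = L φ (Y u)).card) := by
      simp only [coll]
      rw [Finset.sum_comm]
      refine Finset.sum_congr rfl fun u _ => ?_
      rw [Finset.sum_add_distrib]
      exact congr_arg₂ (· + ·)
        (sum_card_filter_and Ξ (fun ξ => ξ ≠ X u) fun φ ξ => L φ ξ = L φ (X u))
        (sum_card_filter_and T (fun v => X v = X u ∧ Y v ≠ Y u) fun φ v => L φ (Y v) = L φ (Y u))
    rw [e, Finset.sum_mul, mul_assoc, ← smul_eq_mul T.card]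
    refine Finset.sum_le_card_nsmul _ _ _ fun u hu => ?_
    rw [add_mul, add_mul, Finset.sum_mul, Finset.sum_mul]
    refine add_le_add ?_ ?_
    · refine (Finset.sum_le_card_nsmul _ _ (q ^ n) fun ξ hξ => ?_).trans
        (Nat.mul_le_mul_right _ (Finset.card_filter_le _ _))
      simp only [Ξ, mem_filter, mem_image] at hξ
      obtain ⟨⟨v, hv, rfl⟩, hne⟩ := hξ
      exact hkill _ _ (hXK v hv) (hXK u hu) hne
    · refine (Finset.sum_le_card_nsmul _ _ (q ^ n) fun v hv => ?_).trans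
        (Nat.mul_le_mul_right _ ((Finset.card_le_card ?_).trans (hμ (X u))))
      · simp only [mem_filter] at hv
        exact hkill _ _ (hYK v hv.1) (hYK u hu) hv.2.2
      · intro v hv
        simp only [mem_filter] at hv ⊢
        exact ⟨hv.1, hv.2.1⟩
  obtain ⟨φ, -, hφ⟩ := Finset.exists_min_image univ coll univ_nonempty
  have hmin : q ^ n * coll φ ≤ ∑ ψ, coll ψ := by
    have := Finset.card_nsmul_le_sum univ coll (coll φ) fun ψ h => hφ ψ h
    simpa using this
  have hc : 2 * coll φ ≤ T.card := by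
    refine Nat.le_of_mul_le_mul_left ?_ hqp.pos
    refine Nat.le_of_mul_le_mul_left ?_ (pow_pos hqp.pos n)
    calc q ^ n * (q * (2 * coll φ)) = 2 * ((q ^ n * coll φ) * q) := by ring
      _ ≤ 2 * (T.card * (Ξ.card + μ) * q ^ n) :=
          Nat.mul_le_mul_left _ ((Nat.mul_le_mul_right _ hmin).trans hsum)
      _ = q ^ n * (T.card * (2 * (Ξ.card + μ))) := by ring
      _ ≤ q ^ n * (T.card * q) := Nat.mul_le_mul_left _ (Nat.mul_le_mul_left _ hqN)
      _ = q ^ n * (q * T.card) := by ring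
  let good := T.filter fun u => b₁ φ u + b₂ φ u = 0
  have hgood : T.card ≤ 2 * good.card := by
    have hbad : (T.filter fun u => ¬ (b₁ φ u + b₂ φ u = 0)).card ≤ coll φ := by
      rw [Finset.card_eq_sum_ones]
      calc _ ≤ ∑ u ∈ T.filter (fun u => ¬ (b₁ φ u + b₂ φ u = 0)), (b₁ φ u + b₂ φ u) :=
            Finset.sum_le_sum fun u hu => Nat.one_le_iff_ne_zero.2 (mem_filter.1 hu).2
        _ ≤ coll φ := Finset.sum_le_sum_of_subset (Finset.filter_subset _ _)
    have := Finset.card_filter_add_card_filter_not (s := T) fun u => b₁ φ u + b₂ φ u = 0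
    simp only [good] at *
    omega
  have hgood' : ∀ u ∈ good, u ∈ T ∧ (∀ v ∈ T, L φ (X v) = L φ (X u) → X v = X u) ∧
      ∀ v ∈ T, X v = X u → L φ (Y v) = L φ (Y u) → Y v = Y u := by
    intro u hu
    simp only [good, b₁, b₂, mem_filter, Nat.add_eq_zero_iff, Finset.card_eq_zero,
      Finset.filter_eq_empty_iff] at hu
    refine ⟨hu.1, fun v hv he => ?_, fun v hv hx he => ?_⟩
    · by_contra hne
      exact hu.2.1 (mem_image_of_mem _ hv) ⟨hne, he⟩
    · by_contra hne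
      exact hu.2.2 hv ⟨⟨hx, hne⟩, he⟩
  let F : (Fin n → ℤ × ℤ) → ℤ × ℤ := fun u =>
    (((L φ (X u)).val : ℤ), ((L φ (Y u)).val : ℤ))
  have hFinj : Set.InjOn F (good : Set _) := by
    intro u hu v hv h
    simp only [F, Prod.mk.injEq, Int.ofNat_inj] at h
    obtain ⟨-, hu1, hu2⟩ := hgood' u hu
    obtain ⟨hvT, -, -⟩ := hgood' v hv
    have hx := hu1 v hvT (ZMod.val_injective q h.1).symm
    have hy := hu2 v hvT hx (ZMod.val_injective q h.2).symm
    funext i
    exact Prod.ext (congrFun hx i).symm (congrFun hy i).symm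
  let A : ℕ → Finset ℤ := fun k => lifts q
    ((T.image fun u i => (u i).1 - (k : ℤ) * (u i).2).image (L φ))
  refine ⟨q, good.image F, A, hqp.pos, ?_, ?_, ?_, ?_, ?_⟩
  · calc q ≤ 2 * (2 * (Ξ.card + μ) * (2 * K₀ + 1)) := hq2
      _ = _ := by ring
  · rwa [Finset.card_image_of_injOn hFinj]
  · intro p hp
    obtain ⟨u, -, rfl⟩ := mem_image.1 hp
    exact ⟨Int.natCast_nonneg _, Int.ofNat_lt.2 (ZMod.val_lt _), Int.natCast_nonneg _,
      Int.ofNat_lt.2 (ZMod.val_lt _)⟩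
  · intro x
    rw [Finset.filter_image]
    refine Finset.card_image_le.trans ?_
    rcases (good.filter fun u => (F u).1 = x).eq_empty_or_nonempty with h | ⟨u, hu⟩
    · simp [h]
    · refine (Finset.card_le_card ?_).trans (hμ (X u))
      intro v hv
      simp only [mem_filter] at hu hv ⊢
      obtain ⟨hvT, -, -⟩ := hgood' v hv.1
      refine ⟨hvT, (hgood' u hu.1).2.1 v hvT (ZMod.val_injective q ?_)⟩
      exact Int.ofNat_inj.1 (hv.2.trans hu.2.symm)
  · intro k hk1 hk3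
    refine ⟨fun p hp => ?_, ?_, fun z hz => lifts_bound hz⟩
    · obtain ⟨u, hu, rfl⟩ := mem_image.1 hp
      have hx0 : (0 : ℤ) ≤ (L φ (X u)).val := Int.natCast_nonneg _
      have hx1 : ((L φ (X u)).val : ℤ) < q := Int.ofNat_lt.2 (ZMod.val_lt _)
      have hy0 : (0 : ℤ) ≤ (L φ (Y u)).val := Int.natCast_nonneg _
      have hy1 : ((L φ (Y u)).val : ℤ) < q := Int.ofNat_lt.2 (ZMod.val_lt _)
      have hk : (k : ℤ) ≤ 3 := by exact_mod_cast hk3
      have hk0 : (0 : ℤ) ≤ k := Int.natCast_nonneg _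
      refine mem_lifts (mem_image.2 ⟨_, mem_image_of_mem _ (hgood' u hu).1, ?_⟩) ?_ ?_
      · show L φ _ = (((F u).1 - (k : ℤ) * (F u).2 : ℤ) : ZMod q)
        simp [F, L, X, Y, mul_sub, Finset.sum_sub_distrib, Finset.mul_sum, mul_left_comm]
      · show -3 * (q : ℤ) ≤ ((L φ (X u)).val : ℤ) - (k : ℤ) * (L φ (Y u)).val
        nlinarith
      · show ((L φ (X u)).val : ℤ) - (k : ℤ) * (L φ (Y u)).val < q
        nlinarith
    · exact (card_lifts _ _).trans (Nat.mul_le_mul_left _ Finset.card_image_le)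

end Vale.Agent.P141
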