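import Mathlib

/-! The explicit weighted configurations in the `(x, t)` plane. -/

namespace Vale.Agent.P141

/-- Machine found weights for the range `r < 26/55` (total 1491). -/
def mainWeights : List ((ℤ × ℤ) × ℕ) := [
  ((-1, -1), 1), ((-2, -2), 2), ((-3, -3), 1), ((4, 2), 1), ((3, 1), 3), ((2, 0), 7),
  ((1, -1), 8), ((0, -2), 5), ((-1, -3), 2), ((8, 4), 1), ((7, 3), 7), ((6, 2), 21),
  ((5, 1), 30), ((4, 0), 27), ((3, -1), 13), ((2, -2), 3), ((12, 6), 1), ((11, 5), 8),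
  ((10, 4), 30), ((9, 3), 62), ((8, 2), 69), ((7, 1), 45), ((6, 0), 17), ((5, -1), 3),
  ((15, 7), 5), ((14, 6), 27), ((13, 5), 76), ((12, 4), 108), ((11, 3), 98), ((10, 2), 47),
  ((9, 1), 13), ((8, 0), 2), ((19, 9), 2), ((18, 8), 13), ((17, 7), 49), ((16, 6), 98),
  ((15, 5), 109), ((14, 4), 73), ((13, 3), 27), ((12, 2), 5), ((22, 10), 4), ((21, 9), 18),
  ((20, 8), 48), ((19, 7), 72), ((18, 6), 64), ((17, 5), 30), ((16, 4), 7), ((15, 3), 1),
  ((25, 11), 3), ((24, 10), 13), ((23, 9), 27), ((22, 8), 30), ((21, 7), 19), ((20, 6), 7),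
  ((19, 5), 1), ((28, 12), 2), ((27, 11), 5), ((26, 10), 8), ((25, 9), 7), ((24, 8), 2),
  ((23, 7), 1), ((30, 12), 1), ((29, 11), 1), ((28, 10), 1)]

/-- Binomial weights for the corner where `p₁` and `p₂` are near one. -/
def cornerWeights12 : List ((ℤ × ℤ) × ℕ) := [
  ((0, 0), 1), ((-1, -1), 7), ((-2, -2), 21), ((-3, -3), 35), ((-4, -4), 35), ((-5, -5), 21),
  ((-6, -6), 7), ((-7, -7), 1), ((4, 2), 7), ((3, 1), 49), ((2, 0), 147), ((1, -1), 245),
  ((0, -2), 245), ((-1, -3), 147), ((-2, -4), 49), ((-3, -5), 7), ((8, 4), 21), ((7, 3), 147),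
  ((6, 2), 441), ((5, 1), 735), ((4, 0), 735), ((3, -1), 441), ((2, -2), 147), ((1, -3), 21),
  ((12, 6), 35), ((11, 5), 245), ((10, 4), 735), ((9, 3), 1225), ((8, 2), 1225), ((7, 1), 735),
  ((6, 0), 245), ((5, -1), 35), ((16, 8), 35), ((15, 7), 245), ((14, 6), 735), ((13, 5), 1225),
  ((12, 4), 1225), ((11, 3), 735), ((10, 2), 245), ((9, 1), 35), ((20, 10), 21), ((19, 9), 147),
  ((18, 8), 441), ((17, 7), 735), ((16, 6), 735), ((15, 5), 441), ((14, 4), 147), ((13, 3), 21),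
  ((24, 12), 7), ((23, 11), 49), ((22, 10), 147), ((21, 9), 245), ((20, 8), 245), ((19, 7), 147),
  ((18, 6), 49), ((17, 5), 7), ((28, 14), 1), ((27, 13), 7), ((26, 12), 21), ((25, 11), 35),
  ((24, 10), 35), ((23, 9), 21), ((22, 8), 7), ((21, 7), 1)]

/-- Binomial weights for the corner where `p₂` and `p₃` are near one. -/
def cornerWeights23 : List ((ℤ × ℤ) × ℕ) := [
  ((0, 0), 1), ((-4, -2), 7), ((-8, -4), 21), ((-12, -6), 35), ((-16, -8), 35), ((-20, -10), 21),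
  ((-24, -12), 7), ((-28, -14), 1), ((3, 1), 7), ((-1, -1), 49), ((-5, -3), 147), ((-9, -5), 245),
  ((-13, -7), 245), ((-17, -9), 147), ((-21, -11), 49), ((-25, -13), 7), ((6, 2), 21), ((2, 0), 147),
  ((-2, -2), 441), ((-6, -4), 735), ((-10, -6), 735), ((-14, -8), 441), ((-18, -10), 147), ((-22, -12), 21),
  ((9, 3), 35), ((5, 1), 245), ((1, -1), 735), ((-3, -3), 1225), ((-7, -5), 1225), ((-11, -7), 735),
  ((-15, -9), 245), ((-19, -11), 35), ((12, 4), 35), ((8, 2), 245), ((4, 0), 735), ((0, -2), 1225),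
  ((-4, -4), 1225), ((-8, -6), 735), ((-12, -8), 245), ((-16, -10), 35), ((15, 5), 21), ((11, 3), 147),
  ((7, 1), 441), ((3, -1), 735), ((-1, -3), 735), ((-5, -5), 441), ((-9, -7), 147), ((-13, -9), 21),
  ((18, 6), 7), ((14, 4), 49), ((10, 2), 147), ((6, 0), 245), ((2, -2), 245), ((-2, -4), 147),
  ((-6, -6), 49), ((-10, -8), 7), ((21, 7), 1), ((17, 5), 7), ((13, 3), 21), ((9, 1), 35),
  ((5, -1), 35), ((1, -3), 21), ((-3, -5), 7), ((-7, -7), 1)]

/-- Binomial weights for the corner where `p₁` and `p₃` are near one. -/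
def cornerWeights13 : List ((ℤ × ℤ) × ℕ) := [
  ((0, 0), 1), ((-1, -1), 3), ((-2, -2), 3), ((-3, -3), 1), ((3, 1), 3), ((2, 0), 9),
  ((1, -1), 9), ((0, -2), 3), ((6, 2), 3), ((5, 1), 9), ((4, 0), 9), ((3, -1), 3),
  ((9, 3), 1), ((8, 2), 3), ((7, 1), 3), ((6, 0), 1)]

end Vale.Agent.P141
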