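import Mathlib

/-!
Typical sequences of a weighted finite configuration, and the exponential bounds on their images
and fibres.
-/

namespace Vale.Agent.P141

open Finset Real

variable {α β : Type*}

/-- The weight of the fibre of `pr` over `v`. -/
def marg [DecidableEq β] (G : Finset α) (w : α → ℝ) (pr : α → β) (v : β) : ℝ :=
  ∑ p ∈ G with pr p = v, w p

/-- The entropy of `pr` under the weights. -/
noncomputable def ent [DecidableEq β] (G : Finset α) (w : α → ℝ) (pr : α → β) : ℝ :=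
  -∑ p ∈ G, w p * Real.log (marg G w pr (pr p))

/-- The second moment of a sum over a product weight. -/
lemma second_moment {γ : Type*} [Fintype γ] (w h : γ → ℝ) (hw : ∑ a, w a = 1)
    (hh : ∑ a, w a * h a = 0) : ∀ n : ℕ,
    (∑ u : Fin n → γ, (∏ i, w (u i)) * ∑ i, h (u i) = 0) ∧
    ∑ u : Fin n → γ, (∏ i, w (u i)) * (∑ i, h (u i)) ^ 2 = n * ∑ a, w a * h a ^ 2
  | 0 => by simp
  | n + 1 => by
    obtain ⟨ih1, ih2⟩ := second_moment w h hw hh n
    have hone : ∑ u : Fin n → γ, ∏ i, w (u i) = 1 := by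
      rw [← Fintype.sum_pow]
      simp [hw]
    constructor
    · rw [← Equiv.sum_comp (Fin.consEquiv fun _ => γ), Fintype.sum_prod_type]
      simp only [Fin.consEquiv_apply, Fin.prod_univ_succ, Fin.sum_univ_succ, Fin.cons_zero,
        Fin.cons_succ]
      calc _ = ∑ a, (w a * h a * (∑ v : Fin n → γ, ∏ i, w (v i)) +
            w a * ∑ v : Fin n → γ, (∏ i, w (v i)) * ∑ i, h (v i)) := by
            refine Finset.sum_congr rfl fun a _ => ?_
            simp only [Finset.mul_sum, ← Finset.sum_add_distrib]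
            refine Finset.sum_congr rfl fun v _ => ?_
            rw [← Finset.mul_sum, ← Finset.mul_sum]
            ring
        _ = 0 := by simp [hone, ih1, hh]
    · rw [← Equiv.sum_comp (Fin.consEquiv fun _ => γ), Fintype.sum_prod_type]
      simp only [Fin.consEquiv_apply, Fin.prod_univ_succ, Fin.sum_univ_succ, Fin.cons_zero,
        Fin.cons_succ]
      calc _ = ∑ a, (w a * h a ^ 2 * (∑ v : Fin n → γ, ∏ i, w (v i)) +
            2 * (w a * h a) * (∑ v : Fin n → γ, (∏ i, w (v i)) * ∑ i, h (v i)) +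
            w a * ∑ v : Fin n → γ, (∏ i, w (v i)) * (∑ i, h (v i)) ^ 2) := by
            refine Finset.sum_congr rfl fun a _ => ?_
            rw [Finset.mul_sum, Finset.mul_sum, Finset.mul_sum, ← Finset.sum_add_distrib,
              ← Finset.sum_add_distrib]
            exact Finset.sum_congr rfl fun v _ => by ring
        _ = (n + 1 : ℕ) * ∑ a, w a * h a ^ 2 := by
            simp only [hone, ih1, ih2, mul_one, mul_zero, add_zero]
            rw [Finset.sum_add_distrib, ← Finset.sum_mul, hw]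
            push_cast
            ring

variable [DecidableEq α]

set_option linter.unusedSectionVars false

lemma mass_fibre [DecidableEq β] (G : Finset α) (w : α → ℝ) (pr : α → β) {n : ℕ} (v : Fin n → β) :
    ∑ u ∈ Fintype.piFinset fun i => G.filter fun p => pr p = v i, ∏ i, w (u i) =
      ∏ i, marg G w pr (v i) :=
  (Finset.prod_univ_sum (fun i => G.filter fun p => pr p = v i) fun _ p => w p).symm

lemma marg_pos [DecidableEq β] {G : Finset α} {w : α → ℝ} (hw : ∀ p ∈ G, 0 < w p) (pr : α → β)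
    {p : α} (hp : p ∈ G) : 0 < marg G w pr (pr p) :=
  Finset.sum_pos (fun q hq => hw q (mem_filter.1 hq).1) ⟨p, mem_filter.2 ⟨hp, rfl⟩⟩

lemma prod_marg_eq [DecidableEq β] {G : Finset α} {w : α → ℝ} (hw : ∀ p ∈ G, 0 < w p)
    (pr : α → β) {n : ℕ} {u : Fin n → α} (hu : ∀ i, u i ∈ G) :
    ∏ i, marg G w pr (pr (u i)) = Real.exp (-∑ i, -Real.log (marg G w pr (pr (u i)))) := by
  rw [Finset.sum_neg_distrib, neg_neg, Real.exp_sum]
  exact Finset.prod_congr rfl fun i _ => (Real.exp_log (marg_pos hw pr (hu i))).symm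

/-- The sequences typical for one map. -/
def IsTyp [DecidableEq β] (G : Finset α) (w : α → ℝ) (pr : α → β) (ε : ℝ) {n : ℕ}
    (u : Fin n → α) : Prop :=
  |∑ i, -Real.log (marg G w pr (pr (u i))) - n * ent G w pr| ≤ ε * n

/-- Chebyshev. -/
lemma mass_not_typ [DecidableEq β] (G : Finset α) (w : α → ℝ) (hw : ∀ p ∈ G, 0 < w p)
    (hsum : ∑ p ∈ G, w p = 1) (pr : α → β) {ε : ℝ} (hε : 0 < ε) {η : ℝ} (hη : 0 < η) :
    ∃ n₀ : ℕ, ∀ n ≥ n₀, ∀ B ⊆ Fintype.piFinset (fun _ : Fin n => G),
      (∀ u ∈ B, ¬ IsTyp G w pr ε u) → ∑ u ∈ B, ∏ i, w (u i) ≤ η := by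
  set h : α → ℝ := fun p => -Real.log (marg G w pr (pr p)) - ent G w pr
  set V := ∑ p ∈ G, w p * h p ^ 2
  have hV : 0 ≤ V := Finset.sum_nonneg fun p hp => mul_nonneg (hw p hp).le (sq_nonneg _)
  obtain ⟨n₀, hn₀⟩ := exists_nat_gt (V / (ε ^ 2 * η))
  refine ⟨n₀ + 1, fun n hn B hB hbad => ?_⟩
  have hn0 : (0 : ℝ) < n := by exact_mod_cast (show 0 < n by omega)
  have hmean : ∑ p ∈ G, w p * h p = 0 := by
    simp only [h, mul_sub, Finset.sum_sub_distrib, ← Finset.sum_mul, hsum, one_mul, mul_neg,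
      Finset.sum_neg_distrib]
    simp [ent]
  have hm := (second_moment (γ := G) (fun a => w a.1) (fun a => h a.1)
    ((Finset.sum_coe_sort G w).trans hsum)
    ((Finset.sum_coe_sort G fun p => w p * h p).trans hmean) n).2
  have hV' : ∑ a : G, w a.1 * h a.1 ^ 2 = V := Finset.sum_coe_sort G fun p => w p * h p ^ 2
  rw [hV'] at hm
  have hall : ∑ u ∈ Fintype.piFinset (fun _ : Fin n => G),
      (∏ i, w (u i)) * (∑ i, h (u i)) ^ 2 = n * V := by
    rw [← hm]
    refine (Finset.sum_bij (fun (u : Fin n → G) _ => fun i => (u i).1) ?_ ?_ ?_ ?_).symm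
    · intro u _
      simp [Fintype.mem_piFinset]
    · intro u _ v _ huv
      funext i
      exact Subtype.ext (congrFun huv i)
    · intro v hv
      exact ⟨fun i => ⟨v i, Fintype.mem_piFinset.1 hv i⟩, mem_univ _, rfl⟩
    · intro u _
      rfl
  have hlow : (∑ u ∈ B, ∏ i, w (u i)) * (ε * n) ^ 2 ≤ n * V := by
    rw [← hall, Finset.sum_mul]
    refine (Finset.sum_le_sum fun u hu => ?_).trans
      (Finset.sum_le_sum_of_subset_of_nonneg hB fun u hu _ => mul_nonneg
        (Finset.prod_nonneg fun i _ => (hw _ (Fintype.mem_piFinset.1 hu i)).le) (sq_nonneg _))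
    refine mul_le_mul_of_nonneg_left ?_
      (Finset.prod_nonneg fun i _ => (hw _ (Fintype.mem_piFinset.1 (hB hu) i)).le)
    have h1 := (not_le.1 (hbad u hu)).le
    have h2 : ∑ i, h (u i) = ∑ i, -Real.log (marg G w pr (pr (u i))) - n * ent G w pr := by
      simp [h, Finset.sum_sub_distrib]
    rw [h2, ← sq_abs (_ - _)]
    exact pow_le_pow_left₀ (by positivity) h1 2
  have hVn : V ≤ η * ε ^ 2 * n := by
    rw [div_lt_iff₀ (by positivity)] at hn₀
    have : (n₀ : ℝ) ≤ n := by exact_mod_cast (show n₀ ≤ n by omega)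
    nlinarith [mul_le_mul_of_nonneg_right this (show (0 : ℝ) ≤ ε ^ 2 * η by positivity)]
  refine le_of_mul_le_mul_right ?_ (pow_pos (mul_pos hε hn0) 2)
  refine hlow.trans ?_
  nlinarith [mul_le_mul_of_nonneg_left hVn hn0.le]

/-- The number of images of typical sequences. -/
lemma card_image_typ [DecidableEq β] {G : Finset α} {w : α → ℝ} (hw : ∀ p ∈ G, 0 < w p)
    (hsum : ∑ p ∈ G, w p = 1) (pr : α → β) {ε : ℝ} {n : ℕ} (T : Finset (Fin n → α))
    (hT : ∀ u ∈ T, (∀ i, u i ∈ G) ∧ IsTyp G w pr ε u) :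
    ((T.image fun u i => pr (u i)).card : ℝ) ≤ Real.exp (n * (ent G w pr + ε)) := by
  classical
  have hge : ∀ v ∈ T.image (fun u i => pr (u i)),
      Real.exp (-(n * (ent G w pr + ε))) ≤ ∏ i, marg G w pr (v i) := by
    intro v hv
    obtain ⟨u, hu, rfl⟩ := mem_image.1 hv
    obtain ⟨huG, ht⟩ := hT u hu
    rw [prod_marg_eq hw pr huG, Real.exp_le_exp]
    have := (abs_le.1 ht).2
    linarith
  have htot : ∑ v ∈ T.image (fun u i => pr (u i)), ∏ i, marg G w pr (v i) ≤ 1 := by
    calc _ ≤ ∑ v ∈ Fintype.piFinset (fun _ : Fin n => G.image pr), ∏ i, marg G w pr (v i) := by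
          refine Finset.sum_le_sum_of_subset_of_nonneg ?_ fun v hv _ =>
            Finset.prod_nonneg fun i _ => Finset.sum_nonneg fun p hp => (hw p (mem_filter.1 hp).1).le
          intro v hv
          obtain ⟨u, hu, rfl⟩ := mem_image.1 hv
          exact Fintype.mem_piFinset.2 fun i => mem_image_of_mem _ ((hT u hu).1 i)
      _ = (∑ b ∈ G.image pr, marg G w pr b) ^ n := by
          rw [Finset.sum_prod_piFinset, Finset.prod_const, Finset.card_univ, Fintype.card_fin]
      _ = 1 := by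
          have : ∑ b ∈ G.image pr, marg G w pr b = 1 :=
            (Finset.sum_fiberwise_of_maps_to (fun p hp => mem_image_of_mem pr hp) w).trans hsum
          rw [this, one_pow]
  have h1 := (Finset.card_nsmul_le_sum _ _ _ hge).trans htot
  rw [nsmul_eq_mul, Real.exp_neg, ← div_eq_mul_inv, div_le_one (Real.exp_pos _)] at h1
  exact h1

/-- The number of typical sequences in a fibre. -/
lemma card_fibre_typ [DecidableEq β] {G : Finset α} {w : α → ℝ} (hw : ∀ p ∈ G, 0 < w p)
    (pr : α → β) {ε : ℝ} {n : ℕ} (T : Finset (Fin n → α))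
    (hT : ∀ u ∈ T, (∀ i, u i ∈ G) ∧ IsTyp G w pr ε u ∧ IsTyp G w id ε u) (v : Fin n → β) :
    ((T.filter fun u => (fun i => pr (u i)) = v).card : ℝ) ≤
      Real.exp (n * (ent G w id - ent G w pr + 2 * ε)) := by
  set Fb := T.filter fun u => (fun i => pr (u i)) = v
  rcases Fb.eq_empty_or_nonempty with h | ⟨u₀, hu₀⟩
  · simp only [h, card_empty, Nat.cast_zero]
    exact (Real.exp_pos _).le
  obtain ⟨hu₀T, hv⟩ := mem_filter.1 hu₀
  obtain ⟨hG₀, ht₀, -⟩ := hT u₀ hu₀T
  have hsub : Fb ⊆ Fintype.piFinset fun i => G.filter fun p => pr p = v i := by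
    intro u hu
    obtain ⟨huT, huv⟩ := mem_filter.1 hu
    exact Fintype.mem_piFinset.2 fun i => mem_filter.2 ⟨(hT u huT).1 i, congrFun huv i⟩
  have hle : ∏ i, marg G w pr (v i) ≤ Real.exp (-(n * (ent G w pr - ε))) := by
    rw [← hv, prod_marg_eq hw pr hG₀, Real.exp_le_exp]
    have := (abs_le.1 ht₀).1
    linarith
  have hge : ∀ u ∈ Fb, Real.exp (-(n * (ent G w id + ε))) ≤ ∏ i, w (u i) := by
    intro u hu
    obtain ⟨huG, -, htu⟩ := hT u (mem_filter.1 hu).1
    have e : ∏ i, w (u i) = ∏ i, marg G w id (id (u i)) := by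
      refine Finset.prod_congr rfl fun i _ => ?_
      simp [marg, Finset.filter_eq', huG i]
    rw [e, prod_marg_eq hw id huG, Real.exp_le_exp]
    have := (abs_le.1 htu).2
    linarith
  have h1 := (Finset.card_nsmul_le_sum _ _ _ hge).trans
    ((Finset.sum_le_sum_of_subset_of_nonneg hsub fun u hu _ =>
      Finset.prod_nonneg fun i _ => (hw _ (mem_filter.1 (Fintype.mem_piFinset.1 hu i)).1).le).trans
      ((mass_fibre G w pr v).trans_le hle))
  rw [nsmul_eq_mul] at h1
  calc (Fb.card : ℝ) = Fb.card * Real.exp (-(n * (ent G w id + ε))) *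
        Real.exp (n * (ent G w id + ε)) := by
        rw [mul_assoc, ← Real.exp_add, neg_add_cancel, Real.exp_zero, mul_one]
    _ ≤ Real.exp (-(n * (ent G w pr - ε))) * Real.exp (n * (ent G w id + ε)) :=
        mul_le_mul_of_nonneg_right h1 (Real.exp_pos _).le
    _ = Real.exp (n * (ent G w id - ent G w pr + 2 * ε)) := by
        rw [← Real.exp_add]
        congr 1
        ring

/-- A lower bound on the number of sequences typical for the identity, given their mass. -/
lemma card_ge {G : Finset α} {w : α → ℝ} (hw : ∀ p ∈ G, 0 < w p) {ε : ℝ} {n : ℕ}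
    (T : Finset (Fin n → α)) (hT : ∀ u ∈ T, (∀ i, u i ∈ G) ∧ IsTyp G w id ε u) {m : ℝ}
    (hm : m ≤ ∑ u ∈ T, ∏ i, w (u i)) :
    m * Real.exp (n * (ent G w id - ε)) ≤ T.card := by
  have hle : ∀ u ∈ T, ∏ i, w (u i) ≤ Real.exp (-(n * (ent G w id - ε))) := by
    intro u hu
    obtain ⟨huG, htu⟩ := hT u hu
    have e : ∏ i, w (u i) = ∏ i, marg G w id (id (u i)) := by
      refine Finset.prod_congr rfl fun i _ => ?_
      simp [marg, Finset.filter_eq', huG i]
    rw [e, prod_marg_eq hw id huG, Real.exp_le_exp]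
    have := (abs_le.1 htu).1
    linarith
  have h1 := hm.trans (Finset.sum_le_card_nsmul _ _ _ hle)
  rw [nsmul_eq_mul, Real.exp_neg, ← div_eq_mul_inv, le_div_iff₀ (Real.exp_pos _)] at h1
  exact h1

end Vale.Agent.P141
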