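import Vale.Agent.P141.Comb
import Vale.Agent.P141.Anal
import Vale.Agent.P141.Typical

/-! A weighted finite configuration gives unboundedness. -/

open MeasureTheory Filter Topology
open scoped ENNReal NNReal SchwartzMap

namespace Vale.Agent.P141

lemma card_rpow_eq (a : ℕ) {u : ℝ} (hu : 0 ≤ u) :
    (a : ℝ≥0∞) ^ u = ENNReal.ofReal ((a : ℝ) ^ u) := by
  rw [← ENNReal.ofReal_rpow_of_nonneg (by positivity) hu, ENNReal.ofReal_natCast]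

/-- The coordinate `x - k t`. -/
def proj (k : ℕ) (p : ℤ × ℤ) : ℤ := p.1 - (k : ℤ) * p.2

lemma exists_fibre_bound {n : ℕ} (T : Finset (Fin n → ℤ × ℤ)) (hT : T.Nonempty) {B : ℝ}
    (h : ∀ ξ : Fin n → ℤ, ((T.filter fun u => (fun i => (u i).1) = ξ).card : ℝ) ≤ B) :
    ∃ μ : ℕ, (∀ ξ : Fin n → ℤ, (T.filter fun u => (fun i => (u i).1) = ξ).card ≤ μ) ∧ 0 < μ ∧
      (μ : ℝ) ≤ B := by
  obtain ⟨u₀, hu₀⟩ := hT
  obtain ⟨u, -, hu⟩ := Finset.exists_max_image T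
    (fun u => (T.filter fun v => (fun i => (v i).1) = fun i => (u i).1).card) ⟨u₀, hu₀⟩
  refine ⟨_, fun ξ => ?_, ?_, h fun i => (u i).1⟩
  · rcases (T.filter fun v => (fun i => (v i).1) = ξ).eq_empty_or_nonempty with h0 | ⟨v, hv⟩
    · simp [h0]
    · obtain ⟨hvT, hv'⟩ := Finset.mem_filter.1 hv
      rw [← hv']
      exact hu v hvT
  · refine lt_of_lt_of_le ?_ (hu u₀ hu₀)
    exact Finset.card_pos.2 ⟨u₀, Finset.mem_filter.2 ⟨hu₀, rfl⟩⟩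

/-- The compressed typical set of the `n`-th power. -/
theorem exists_data (G : Finset (ℤ × ℤ)) (w : ℤ × ℤ → ℝ)
    (hw : ∀ p ∈ G, 0 < w p) (hwsum : ∑ p ∈ G, w p = 1)
    (hfib : ent G w id ≤ 2 * ent G w Prod.fst) {ε : ℝ} (hε : 0 < ε) :
    ∃ n₀ K₀ : ℕ, ∀ n ≥ n₀, ∃ (q : ℕ) (P : Finset (ℤ × ℤ)) (μ : ℕ) (A : ℕ → Finset ℤ),
      0 < q ∧ (q : ℝ) ≤ 8 * (2 * K₀ + 1) * Real.exp (n * (ent G w Prod.fst + 2 * ε)) ∧
      Real.exp (n * (ent G w id - ε)) / 4 ≤ P.card ∧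
      0 < μ ∧ (μ : ℝ) ≤ Real.exp (n * (ent G w id - ent G w Prod.fst + 2 * ε)) ∧
      (∀ x : ℤ, (P.filter fun p => p.1 = x).card ≤ μ) ∧
      (∀ k : ℕ, 1 ≤ k → k ≤ 3 → (∀ p ∈ P, p.1 - (k : ℤ) * p.2 ∈ A k) ∧
        (∀ z ∈ A k, -3 * (q : ℤ) ≤ z ∧ z < q)) ∧
      ((A 1).card : ℝ) ≤ 4 * Real.exp (n * (ent G w (proj 1) + ε)) ∧
      ((A 2).card : ℝ) ≤ 4 * Real.exp (n * (ent G w (proj 2) + ε)) ∧
      ((A 3).card : ℝ) ≤ 4 * Real.exp (n * (ent G w (proj 3) + ε)) := by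
  classical
  obtain ⟨n₁, hn₁⟩ := mass_not_typ G w hw hwsum (proj 1) hε (η := 1 / 10) (by norm_num)
  obtain ⟨n₂, hn₂⟩ := mass_not_typ G w hw hwsum (proj 2) hε (η := 1 / 10) (by norm_num)
  obtain ⟨n₃, hn₃⟩ := mass_not_typ G w hw hwsum (proj 3) hε (η := 1 / 10) (by norm_num)
  obtain ⟨n₄, hn₄⟩ := mass_not_typ G w hw hwsum Prod.fst hε (η := 1 / 10) (by norm_num)
  obtain ⟨n₅, hn₅⟩ := mass_not_typ G w hw hwsum id hε (η := 1 / 10) (by norm_num)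
  set K₀ := G.sup fun p => max p.1.natAbs p.2.natAbs
  refine ⟨n₁ + n₂ + n₃ + n₄ + n₅ + 1, K₀, fun n hn => ?_⟩
  obtain ⟨U, hU⟩ : ∃ U, U = Fintype.piFinset fun _ : Fin n => G := ⟨_, rfl⟩
  obtain ⟨T, hTdef⟩ : ∃ T, T = U.filter fun u => IsTyp G w (proj 1) ε u ∧ IsTyp G w (proj 2) ε u ∧
      IsTyp G w (proj 3) ε u ∧ IsTyp G w Prod.fst ε u ∧ IsTyp G w id ε u := ⟨_, rfl⟩
  have hTmem : ∀ u ∈ T, (∀ i, u i ∈ G) ∧ IsTyp G w (proj 1) ε u ∧ IsTyp G w (proj 2) ε u ∧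
      IsTyp G w (proj 3) ε u ∧ IsTyp G w Prod.fst ε u ∧ IsTyp G w id ε u := by
    intro u hu
    rw [hTdef, Finset.mem_filter, hU, Fintype.mem_piFinset] at hu
    exact hu
  have hmass : 1 / 2 ≤ ∑ u ∈ T, ∏ i, w (u i) := by
    have htot : ∑ u ∈ U, ∏ i, w (u i) = 1 := by
      rw [hU, Finset.sum_prod_piFinset, Finset.prod_const, hwsum, one_pow]
    have h1 := hn₁ n (by omega) (U.filter fun u => ¬ IsTyp G w (proj 1) ε u)
      (by rw [← hU]; exact Finset.filter_subset _ _) fun u hu => (Finset.mem_filter.1 hu).2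
    have h2 := hn₂ n (by omega) (U.filter fun u => ¬ IsTyp G w (proj 2) ε u)
      (by rw [← hU]; exact Finset.filter_subset _ _) fun u hu => (Finset.mem_filter.1 hu).2
    have h3 := hn₃ n (by omega) (U.filter fun u => ¬ IsTyp G w (proj 3) ε u)
      (by rw [← hU]; exact Finset.filter_subset _ _) fun u hu => (Finset.mem_filter.1 hu).2
    have h4 := hn₄ n (by omega) (U.filter fun u => ¬ IsTyp G w Prod.fst ε u)
      (by rw [← hU]; exact Finset.filter_subset _ _) fun u hu => (Finset.mem_filter.1 hu).2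
    have h5 := hn₅ n (by omega) (U.filter fun u => ¬ IsTyp G w id ε u)
      (by rw [← hU]; exact Finset.filter_subset _ _) fun u hu => (Finset.mem_filter.1 hu).2
    have hle : ∀ u ∈ U, ∏ i, w (u i) ≤ (if u ∈ T then ∏ i, w (u i) else 0) +
        (if ¬ IsTyp G w (proj 1) ε u then ∏ i, w (u i) else 0) +
        (if ¬ IsTyp G w (proj 2) ε u then ∏ i, w (u i) else 0) +
        (if ¬ IsTyp G w (proj 3) ε u then ∏ i, w (u i) else 0) +
        (if ¬ IsTyp G w Prod.fst ε u then ∏ i, w (u i) else 0) +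
        (if ¬ IsTyp G w id ε u then ∏ i, w (u i) else 0) := by
      intro u hu
      have h0 : 0 ≤ ∏ i, w (u i) :=
        Finset.prod_nonneg fun i _ => (hw _ (Fintype.mem_piFinset.1 (hU ▸ hu) i)).le
      have hT' : u ∈ T ↔ IsTyp G w (proj 1) ε u ∧ IsTyp G w (proj 2) ε u ∧
          IsTyp G w (proj 3) ε u ∧ IsTyp G w Prod.fst ε u ∧ IsTyp G w id ε u := by
        simp [hTdef, hu]
      simp only [hT']
      split_ifs <;> first | linarith | (exfalso; tauto)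
    have hsumle := Finset.sum_le_sum hle
    simp only [Finset.sum_add_distrib, ← Finset.sum_filter] at hsumle
    rw [Finset.filter_mem_eq_inter,
      Finset.inter_eq_right.2 (hTdef ▸ Finset.filter_subset _ _), htot] at hsumle
    linarith
  have hTne : T.Nonempty := by
    rw [Finset.nonempty_iff_ne_empty]
    intro h
    rw [h, Finset.sum_empty] at hmass
    norm_num at hmass
  have hTcard : 1 / 2 * Real.exp (n * (ent G w id - ε)) ≤ T.card :=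
    card_ge hw T (fun u hu => ⟨(hTmem u hu).1, (hTmem u hu).2.2.2.2.2⟩) hmass
  obtain ⟨μ, hμle, hμ0, hμexp⟩ : ∃ μ : ℕ,
      (∀ ξ : Fin n → ℤ, (T.filter fun u => (fun i => (u i).1) = ξ).card ≤ μ) ∧ 0 < μ ∧
      (μ : ℝ) ≤ Real.exp (n * (ent G w id - ent G w Prod.fst + 2 * ε)) :=
    exists_fibre_bound T hTne fun ξ => card_fibre_typ hw Prod.fst T
      (fun u hu => ⟨(hTmem u hu).1, (hTmem u hu).2.2.2.2.1, (hTmem u hu).2.2.2.2.2⟩) ξ
  have hK : ∀ u ∈ T, ∀ i, (u i).1.natAbs ≤ K₀ ∧ (u i).2.natAbs ≤ K₀ := by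
    intro u hu i
    have h := Finset.le_sup (f := fun p : ℤ × ℤ => max p.1.natAbs p.2.natAbs) ((hTmem u hu).1 i)
    exact ⟨(le_max_left _ _).trans h, (le_max_right _ _).trans h⟩
  obtain ⟨q, P, A, hq, hqK, hPc, -, hPμ, hA⟩ := exists_hashed T hTne K₀ μ hK hμle
  have hqexp : (q : ℝ) ≤ 8 * (2 * K₀ + 1) * Real.exp (n * (ent G w Prod.fst + 2 * ε)) := by
    have hX : ((T.image fun u i => (u i).1).card : ℝ) ≤ Real.exp (n * (ent G w Prod.fst + ε)) :=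
      card_image_typ hw hwsum Prod.fst T fun v hv => ⟨(hTmem v hv).1, (hTmem v hv).2.2.2.2.1⟩
    have e1 : Real.exp (n * (ent G w Prod.fst + ε)) ≤ Real.exp (n * (ent G w Prod.fst + 2 * ε)) :=
      Real.exp_le_exp.2 (mul_le_mul_of_nonneg_left (by linarith) (by positivity))
    have e2 : Real.exp (n * (ent G w id - ent G w Prod.fst + 2 * ε)) ≤ Real.exp (n * (ent G w Prod.fst + 2 * ε)) :=
      Real.exp_le_exp.2 (mul_le_mul_of_nonneg_left (by linarith) (by positivity))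
    have h := (Nat.cast_le (α := ℝ)).2 hqK
    push_cast at h
    calc (q : ℝ) ≤ 4 * (2 * K₀ + 1) * (((T.image fun u i => (u i).1).card : ℝ) + μ) := h
      _ ≤ 4 * (2 * K₀ + 1) * (2 * Real.exp (n * (ent G w Prod.fst + 2 * ε))) :=
          mul_le_mul_of_nonneg_left (by linarith) (by positivity)
      _ = _ := by ring
  have hAk : ∀ (k : ℕ), 1 ≤ k → k ≤ 3 → (∀ v ∈ T, IsTyp G w (proj k) ε v) →
      ((A k).card : ℝ) ≤ 4 * Real.exp (n * (ent G w (proj k) + ε)) := by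
    intro k hk hk' hty
    refine (Nat.cast_le.2 (hA k hk hk').2.1).trans ?_
    rw [Nat.cast_mul, Nat.cast_ofNat]
    exact mul_le_mul_of_nonneg_left (card_image_typ hw hwsum (proj k) T
      fun v hv => ⟨(hTmem v hv).1, hty v hv⟩) (by norm_num)
  refine ⟨q, P, μ, A, hq, hqexp, ?_, hμ0, hμexp, hPμ,
    fun k hk hk' => ⟨(hA k hk hk').1, (hA k hk hk').2.2⟩,
    hAk 1 le_rfl (by norm_num) fun v hv => (hTmem v hv).2.1,
    hAk 2 (by norm_num) (by norm_num) fun v hv => (hTmem v hv).2.2.1,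
    hAk 3 (by norm_num) le_rfl fun v hv => (hTmem v hv).2.2.2.1⟩
  have : (T.card : ℝ) ≤ 2 * P.card := by exact_mod_cast hPc
  linarith

set_option linter.unusedSimpArgs false in
/-- The real arithmetic comparing the two exponential rates. -/
lemma growth_bound {n K C q P μ a₁ a₂ a₃ ρ S u₁ u₂ u₃ H₁ H₂ H₃ Hx H ε Δ : ℝ}
    (hS : S = u₁ + u₂ + u₃) (hu₁ : 0 ≤ u₁) (hu₂ : 0 ≤ u₂) (hu₃ : 0 ≤ u₃) (hS1 : 1 ≤ S)
    (hρ : ρ * S = 1) (hC : 0 ≤ C) (hn : 0 ≤ n) (hK : 0 ≤ K) (hq : 0 < q)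
    (hqexp : q ≤ 8 * (2 * K + 1) * Real.exp (n * (Hx + 2 * ε)))
    (hP : Real.exp (n * (H - ε)) / 4 ≤ P) (hμR : 0 < μ)
    (hμexp : μ ≤ Real.exp (n * (H - Hx + 2 * ε)))
    (ha₁ : 0 ≤ a₁) (ha₂ : 0 ≤ a₂) (ha₃ : 0 ≤ a₃)
    (hA₁ : a₁ ≤ 4 * Real.exp (n * (H₁ + ε))) (hA₂ : a₂ ≤ 4 * Real.exp (n * (H₂ + ε)))
    (hA₃ : a₃ ≤ 4 * Real.exp (n * (H₃ + ε)))
    (key : (P * μ ^ (ρ - 1) / 50) ^ S / (650 * q) ≤ C * (a₁ ^ u₁ * a₂ ^ u₂ * a₃ ^ u₃))
    (hεdef : ε = Δ / (8 * S))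
    (hΔ : Δ = (S - 2) * Hx + H - (u₁ * H₁ + u₂ * H₂ + u₃ * H₃)) :
    Real.exp (n * (Δ / 2)) ≤
      C * (4 : ℝ) ^ S * (4 : ℝ) ^ S * (50 : ℝ) ^ S * (650 * (8 * (2 * K + 1))) := by
  have hS0 : 0 ≤ S := zero_le_one.trans hS1
  have hP0 : 0 ≤ P := (div_nonneg (Real.exp_pos _).le (by norm_num)).trans hP
  have hpow : ∀ {a u h : ℝ}, 0 ≤ a → 0 ≤ u → a ≤ 4 * Real.exp (n * h) →
      a ^ u ≤ (4 : ℝ) ^ u * Real.exp (n * (u * h)) := by
    intro a u h ha hu hle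
    refine (Real.rpow_le_rpow ha hle hu).trans (le_of_eq ?_)
    rw [Real.mul_rpow (by norm_num) (Real.exp_pos _).le, ← Real.exp_mul]
    ring_nf
  have c₁ := hpow ha₁ hu₁ hA₁
  have c₂ := hpow ha₂ hu₂ hA₂
  have c₃ := hpow ha₃ hu₃ hA₃
  have h4 : (4 : ℝ) ^ S = (4 : ℝ) ^ u₁ * (4 : ℝ) ^ u₂ * (4 : ℝ) ^ u₃ := by
    rw [hS, Real.rpow_add (by norm_num), Real.rpow_add (by norm_num)]
  have e : (ρ - 1) * S = 1 - S := by rw [sub_mul, one_mul, hρ]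
  have low : Real.exp (n * ((H - ε) * S + (H - Hx + 2 * ε) * (1 - S))) ≤
      (P * μ ^ (ρ - 1) / 50) ^ S * ((4 : ℝ) ^ S * (50 : ℝ) ^ S) := by
    calc Real.exp (n * ((H - ε) * S + (H - Hx + 2 * ε) * (1 - S)))
        = Real.exp (n * (H - ε)) ^ S * Real.exp (n * (H - Hx + 2 * ε)) ^ (1 - S) := by
          rw [← Real.exp_mul, ← Real.exp_mul, ← Real.exp_add]
          ring_nf
      _ ≤ (P * 4) ^ S * μ ^ (1 - S) := by
          refine mul_le_mul (Real.rpow_le_rpow (Real.exp_pos _).le (by linarith) hS0)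
            (Real.rpow_le_rpow_of_nonpos hμR hμexp (by linarith)) (by positivity) (by positivity)
      _ = _ := by
          rw [Real.div_rpow (mul_nonneg hP0 (Real.rpow_nonneg hμR.le _)) (by norm_num),
            Real.mul_rpow hP0 (by norm_num), Real.mul_rpow hP0 (Real.rpow_nonneg hμR.le _),
            ← Real.rpow_mul hμR.le, e]
          field_simp
  rw [div_le_iff₀ (by positivity)] at key
  have k1 : Real.exp (n * ((H - ε) * S + (H - Hx + 2 * ε) * (1 - S))) ≤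
      C * ((4 : ℝ) ^ u₁ * Real.exp (n * (u₁ * (H₁ + ε))) *
        ((4 : ℝ) ^ u₂ * Real.exp (n * (u₂ * (H₂ + ε)))) *
        ((4 : ℝ) ^ u₃ * Real.exp (n * (u₃ * (H₃ + ε))))) *
        (650 * (8 * (2 * K + 1) * Real.exp (n * (Hx + 2 * ε)))) *
          ((4 : ℝ) ^ S * (50 : ℝ) ^ S) := by
    refine low.trans (mul_le_mul_of_nonneg_right (key.trans ?_) (by positivity))
    gcongr
  have main : Real.exp (n * ((H - ε) * S + (H - Hx + 2 * ε) * (1 - S))) ≤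
      C * (4 : ℝ) ^ S * (4 : ℝ) ^ S * (50 : ℝ) ^ S * (650 * (8 * (2 * K + 1))) *
        Real.exp (n * (Hx + 2 * ε + (u₁ * (H₁ + ε) + u₂ * (H₂ + ε) + u₃ * (H₃ + ε)))) := by
    refine k1.trans (le_of_eq ?_)
    have e4 : Real.exp (n * (Hx + 2 * ε + (u₁ * (H₁ + ε) + u₂ * (H₂ + ε) + u₃ * (H₃ + ε)))) =
        Real.exp (n * (Hx + 2 * ε)) * (Real.exp (n * (u₁ * (H₁ + ε))) *
          Real.exp (n * (u₂ * (H₂ + ε))) * Real.exp (n * (u₃ * (H₃ + ε)))) := by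
      rw [← Real.exp_add, ← Real.exp_add, ← Real.exp_add]
      congr 1
      ring
    rw [e4, h4]
    ring
  have hgap : Δ / 2 ≤ ((H - ε) * S + (H - Hx + 2 * ε) * (1 - S)) -
      (Hx + 2 * ε + (u₁ * (H₁ + ε) + u₂ * (H₂ + ε) + u₃ * (H₃ + ε))) := by
    have : ε * (4 * S) = Δ / 2 := by rw [hεdef]; field_simp; ring
    have h5 : u₁ * ε + u₂ * ε + u₃ * ε = S * ε := by rw [hS]; ring
    linarith
  refine le_trans (Real.exp_le_exp.2 (mul_le_mul_of_nonneg_left hgap hn)) ?_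
  rw [mul_sub, Real.exp_sub, div_le_iff₀ (Real.exp_pos _)]
  exact main

/-- The criterion. `G` lives in the `(x, t)` plane. -/
theorem not_boundedAt_of_weights (G : Finset (ℤ × ℤ)) (w : ℤ × ℤ → ℝ)
    (hw : ∀ p ∈ G, 0 < w p) (hwsum : ∑ p ∈ G, w p = 1)
    (hfib : ent G w id ≤ 2 * ent G w Prod.fst)
    {p₁ p₂ p₃ r : ℝ≥0∞} (h₁ : 1 < p₁) (h₂ : 1 < p₂) (h₃ : 1 < p₃) (hr : r ≠ 0) (hr1 : r ≤ 1)
    (hsum : r⁻¹ = p₁⁻¹ + p₂⁻¹ + p₃⁻¹)
    (hcond : p₁.toReal⁻¹ * ent G w (proj 1) + p₂.toReal⁻¹ * ent G w (proj 2) +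
      p₃.toReal⁻¹ * ent G w (proj 3) <
      (r.toReal⁻¹ - 2) * ent G w Prod.fst + ent G w id) :
    ¬ BoundedAt p₁ p₂ p₃ r := by
  rintro ⟨C, hC⟩
  have hr' : r ≠ ⊤ := ne_top_of_le_ne_top ENNReal.one_ne_top hr1
  set u₁ := p₁.toReal⁻¹
  set u₂ := p₂.toReal⁻¹
  set u₃ := p₃.toReal⁻¹
  set S := r.toReal⁻¹ with hSdef
  set H₁ := ent G w (proj 1)
  set H₂ := ent G w (proj 2)
  set H₃ := ent G w (proj 3)
  set Hx := ent G w Prod.fst
  set H := ent G w id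
  have hne : ∀ {p : ℝ≥0∞}, 1 < p → p ≠ 0 := fun h => (zero_lt_one.trans h).ne'
  have hu₁ : 0 ≤ u₁ := by positivity
  have hu₂ : 0 ≤ u₂ := by positivity
  have hu₃ : 0 ≤ u₃ := by positivity
  have hS : S = u₁ + u₂ + u₃ := by
    have := congrArg ENNReal.toReal hsum
    rw [ENNReal.toReal_add, ENNReal.toReal_add] at this
    · simpa [ENNReal.toReal_inv, S, u₁, u₂, u₃] using this
    all_goals simp [hne h₁, hne h₂, hne h₃]
  have hρ : 0 < r.toReal := ENNReal.toReal_pos hr hr'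
  have hS1 : 1 ≤ S := by
    refine (one_le_inv₀ hρ).2 ?_
    simpa using ENNReal.toReal_mono ENNReal.one_ne_top hr1
  have hS0 : 0 ≤ S := zero_le_one.trans hS1
  set Δ := (S - 2) * Hx + H - (u₁ * H₁ + u₂ * H₂ + u₃ * H₃)
  have hΔ : 0 < Δ := sub_pos.2 hcond
  set ε := Δ / (8 * S) with hεdef
  have hε : 0 < ε := by positivity
  obtain ⟨n₁, K₀, hdata⟩ := exists_data G w hw hwsum hfib hε
  set M : ℝ := (C : ℝ) * (4 : ℝ) ^ S * (4 : ℝ) ^ S * (50 : ℝ) ^ S * (650 * (8 * (2 * K₀ + 1)))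
  obtain ⟨n₀, hn₀⟩ := exists_nat_gt (2 * M / Δ)
  set n := n₀ + n₁ with hn
  obtain ⟨q, P, μ, A, hq, hqexp, hP, hμ0, hμexp, hPμ, hA, hA₁, hA₂, hA₃⟩ := hdata n (by omega)
  obtain ⟨f₁, f₂, f₃, g, hg', e₁, e₂, e₃, eg⟩ :=
    exists_witness hq P μ A hPμ hA
      (hne h₁) (hne h₂) (hne h₃) hr hr' hr1
  have key := eg.trans ((hC f₁ f₂ f₃ g hg').trans
    (mul_le_mul_right (mul_le_mul (mul_le_mul e₁ e₂ zero_le zero_le) e₃ zero_le zero_le) _))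
  rw [card_rpow_eq _ hu₁, card_rpow_eq _ hu₂, card_rpow_eq _ hu₃,
    ← ENNReal.ofReal_mul (by positivity), ← ENNReal.ofReal_mul (by positivity),
    ← ENNReal.ofReal_coe_nnreal, ← ENNReal.ofReal_mul (by positivity),
    ENNReal.ofReal_le_ofReal_iff (by positivity)] at key
  refine absurd (growth_bound (n := (n : ℝ)) (K := (K₀ : ℝ)) hS hu₁ hu₂ hu₃ hS1
    (mul_inv_cancel₀ hρ.ne') C.coe_nonneg (Nat.cast_nonneg _) (Nat.cast_nonneg _) (Nat.cast_pos.2 hq)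
    hqexp hP (Nat.cast_pos.2 hμ0) hμexp (Nat.cast_nonneg _) (Nat.cast_nonneg _)
    (Nat.cast_nonneg _) hA₁ hA₂ hA₃ key hεdef rfl) (not_le.2 ?_)
  have hgrow := Real.add_one_le_exp ((n : ℝ) * (Δ / 2))
  rw [div_lt_iff₀ hΔ] at hn₀
  have : (n₀ : ℝ) ≤ n := by exact_mod_cast (show n₀ ≤ n by omega)
  nlinarith [mul_le_mul_of_nonneg_right this hΔ.le]

end Vale.Agent.P141
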