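import Mathlib

/-! Definitions for the trilinear Hilbert transform along slopes 1, 2, 3. -/

open MeasureTheory Filter Topology
open scoped ENNReal NNReal SchwartzMap

noncomputable section

namespace Vale.Agent.P141

/-- The truncated trilinear Hilbert transform with slopes 1, 2, 3. -/
def Trunc (f₁ f₂ f₃ : ℝ → ℂ) (ε R x : ℝ) : ℂ :=
  ∫ t in {t : ℝ | ε < |t| ∧ |t| < R}, f₁ (x - t) * f₂ (x - 2 * t) * f₃ (x - 3 * t) / (t : ℂ)

/-- `g` is the principal value transform of the triple, at every point. -/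
def IsTHT (f₁ f₂ f₃ : ℝ → ℂ) (g : ℝ → ℂ) : Prop :=
  ∀ x : ℝ, Tendsto (fun p : ℝ × ℝ => Trunc f₁ f₂ f₃ p.1 p.2 x) (𝓝[>] (0 : ℝ) ×ˢ atTop) (𝓝 (g x))

/-- Boundedness at a tuple: one constant for all Schwartz inputs. -/
def BoundedAt (p₁ p₂ p₃ r : ℝ≥0∞) : Prop :=
  ∃ C : ℝ≥0, ∀ (f₁ f₂ f₃ : 𝓢(ℝ, ℂ)) (g : ℝ → ℂ), IsTHT f₁ f₂ f₃ g →
    eLpNorm g r volume ≤
      C * (eLpNorm f₁ p₁ volume * eLpNorm f₂ p₂ volume * eLpNorm f₃ p₃ volume)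

end Vale.Agent.P141
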