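import Vale.Agent.P141.Core

/-! The entropy conditions as comparisons of natural numbers. -/

open MeasureTheory
open scoped ENNReal NNReal

namespace Vale.Agent.P141

variable {β : Type*} [DecidableEq β]

/-- Total weight of the entries mapped to `v`. -/
def fib (L : List ((ℤ × ℤ) × ℕ)) (f : ℤ × ℤ → β) (v : β) : ℕ :=
  ((L.filter fun e => f e.1 = v).map Prod.snd).sum

/-- The product whose logarithm gives the entropy. -/
def lprod (L : List ((ℤ × ℤ) × ℕ)) (f : ℤ × ℤ → β) : ℕ :=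
  (L.map fun e => fib L f (f e.1) ^ e.2).prod

/-- The total weight. -/
def total (L : List ((ℤ × ℤ) × ℕ)) : ℕ := (L.map Prod.snd).sum

/-- Well-formed weights with fewer points per fibre than fibres. -/
def Wellformed (L : List ((ℤ × ℤ) × ℕ)) : Prop :=
  (L.map Prod.fst).Nodup ∧ (∀ e ∈ L, 0 < e.2) ∧ 0 < total L ∧
    lprod L Prod.fst ^ 2 < total L ^ total L * lprod L id

/-- The comparison giving `b (Hx - H_k) ≥ a (2 Hx - H)`. -/
def Gains (L : List ((ℤ × ℤ) × ℕ)) (k a b : ℕ) : Prop :=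
  2 * a ≤ b ∧
    total L ^ (a * total L) * lprod L Prod.fst ^ (b - 2 * a) * lprod L id ^ a ≤ lprod L (proj k) ^ b

/-- The real weights. -/
noncomputable def weight (L : List ((ℤ × ℤ) × ℕ)) (p : ℤ × ℤ) : ℝ :=
  (fib L id p : ℝ) / total L

lemma fib_self {L : List ((ℤ × ℤ) × ℕ)} (hnd : (L.map Prod.fst).Nodup) {e : (ℤ × ℤ) × ℕ}
    (he : e ∈ L) : fib L id e.1 = e.2 := by
  induction L with
  | nil => simp at he
  | cons a l ih =>
    simp only [List.map_cons, List.nodup_cons] at hnd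
    rcases List.mem_cons.1 he with rfl | h
    · have : l.filter (fun x => decide (id x.1 = e.1)) = [] := by
        rw [List.filter_eq_nil_iff]
        intro x hx h
        simp only [id_eq, decide_eq_true_eq] at h
        exact hnd.1 (h ▸ List.mem_map_of_mem hx)
      simp only [fib, List.filter_cons, id_eq, decide_true, if_true, List.map_cons, List.sum_cons]
      simp only [id_eq] at this
      simp [this]
    · have hne : a.1 ≠ e.1 := fun h' => hnd.1 (h' ▸ List.mem_map_of_mem h)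
      simpa [fib, List.filter_cons, hne] using ih hnd.2 h

lemma sum_weight {L : List ((ℤ × ℤ) × ℕ)} (hnd : (L.map Prod.fst).Nodup) (h : ℤ × ℤ → ℝ) :
    ∑ p ∈ (L.map Prod.fst).toFinset, weight L p * h p =
      (L.map fun e => (e.2 : ℝ) * h e.1).sum / total L := by
  rw [List.sum_toFinset _ hnd, List.map_map, div_eq_mul_inv, ← List.sum_map_mul_right]
  congr 1
  refine List.map_congr_left fun e he => ?_
  simp only [Function.comp, weight, fib_self hnd he]
  ring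

lemma marg_weight {L : List ((ℤ × ℤ) × ℕ)} (hnd : (L.map Prod.fst).Nodup) (f : ℤ × ℤ → β) (v : β) :
    marg (L.map Prod.fst).toFinset (weight L) f v = (fib L f v : ℝ) / total L := by
  have h : marg (L.map Prod.fst).toFinset (weight L) f v =
      ∑ p ∈ (L.map Prod.fst).toFinset, weight L p * (if f p = v then 1 else 0) := by
    simp [marg, Finset.sum_filter]
  rw [h, sum_weight hnd]
  congr 1
  rw [fib]
  clear h hnd
  induction L with
  | nil => simp
  | cons a l ih =>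
    simp only [List.map_cons, List.sum_cons]
    rw [ih]
    by_cases ha : f a.1 = v <;> simp [ha]

lemma fib_pos {L : List ((ℤ × ℤ) × ℕ)} (hpos : ∀ e ∈ L, 0 < e.2) (f : ℤ × ℤ → β)
    {e : (ℤ × ℤ) × ℕ} (he : e ∈ L) : 0 < fib L f (f e.1) := by
  refine Nat.lt_of_lt_of_le (hpos e he) (List.le_sum_of_mem ?_)
  exact List.mem_map.2 ⟨e, List.mem_filter.2 ⟨he, by simp⟩, rfl⟩

lemma lprod_pos {L : List ((ℤ × ℤ) × ℕ)} (hpos : ∀ e ∈ L, 0 < e.2) (f : ℤ × ℤ → β) :
    0 < lprod L f := by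
  refine Nat.pos_of_ne_zero fun h => ?_
  obtain ⟨e, he, h0⟩ := List.mem_map.1 (List.prod_eq_zero_iff.1 h)
  exact (pow_pos (fib_pos hpos f he) _).ne' h0

lemma log_list_prod (l : List ℕ) (h : ∀ a ∈ l, 0 < a) :
    Real.log (l.prod : ℕ) = (l.map fun a : ℕ => Real.log (a : ℝ)).sum := by
  induction l with
  | nil => simp
  | cons a l ih =>
    simp only [List.mem_cons, forall_eq_or_imp] at h
    have hl : l.prod ≠ 0 := fun h0 => (h.2 0 (List.prod_eq_zero_iff.1 h0)).false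
    rw [List.prod_cons, Nat.cast_mul, Real.log_mul (Nat.cast_ne_zero.2 h.1.ne')
      (Nat.cast_ne_zero.2 hl), ih h.2, List.map_cons, List.sum_cons]

lemma mul_ent {L : List ((ℤ × ℤ) × ℕ)} (hwf : Wellformed L) (f : ℤ × ℤ → β) :
    (total L : ℝ) * ent (L.map Prod.fst).toFinset (weight L) f =
      total L * Real.log (total L) - Real.log (lprod L f) := by
  obtain ⟨hnd, hpos, hM, -⟩ := hwf
  have hM' : (total L : ℝ) ≠ 0 := Nat.cast_ne_zero.2 hM.ne'
  rw [ent, sum_weight hnd, mul_neg, mul_div_cancel₀ _ hM', lprod, log_list_prod _ ?_, List.map_map]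
  · simp only [marg_weight hnd, Function.comp_def]
    have e : ∀ x ∈ L, (x.2 : ℝ) * Real.log ((fib L f (f x.1) : ℝ) / total L) =
        Real.log ((fib L f (f x.1) ^ x.2 : ℕ) : ℝ) + (x.2 : ℝ) * -Real.log (total L) := by
      intro x hx
      rw [Real.log_div (Nat.cast_ne_zero.2 (fib_pos hpos f hx).ne') hM', Nat.cast_pow, Real.log_pow]
      ring
    rw [List.map_congr_left e, List.sum_map_add, List.sum_map_mul_right]
    have : (L.map fun x => (x.2 : ℝ)).sum = (total L : ℝ) := by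
      rw [total, Nat.cast_list_sum, List.map_map]
      rfl
    rw [this]
    ring
  · intro a ha
    obtain ⟨x, hx, rfl⟩ := List.mem_map.1 ha
    exact pow_pos (fib_pos hpos f hx) _

lemma gains_spec {L : List ((ℤ × ℤ) × ℕ)} (hwf : Wellformed L) {k a b : ℕ} (hg : Gains L k a b) :
    (a : ℝ) * (2 * ent (L.map Prod.fst).toFinset (weight L) Prod.fst -
        ent (L.map Prod.fst).toFinset (weight L) id) ≤
      (b : ℝ) * (ent (L.map Prod.fst).toFinset (weight L) Prod.fst -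
        ent (L.map Prod.fst).toFinset (weight L) (proj k)) := by
  obtain ⟨hab, hg⟩ := hg
  have ex := mul_ent hwf (Prod.fst : ℤ × ℤ → ℤ)
  have ei := mul_ent hwf (id : ℤ × ℤ → ℤ × ℤ)
  have ek := mul_ent hwf (proj k)
  obtain ⟨-, hpos, hM, -⟩ := hwf
  have h := Real.log_le_log ?_ (Nat.cast_le (α := ℝ).2 hg)
  · have hM' : (0 : ℝ) < total L := Nat.cast_pos.2 hM
    have hx : (0 : ℝ) < lprod L (Prod.fst : ℤ × ℤ → ℤ) := Nat.cast_pos.2 (lprod_pos hpos _)
    have hi : (0 : ℝ) < lprod L (id : ℤ × ℤ → ℤ × ℤ) := Nat.cast_pos.2 (lprod_pos hpos _)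
    push_cast at h
    rw [Real.log_mul (by positivity) (by positivity), Real.log_mul (by positivity) (by positivity),
      Real.log_pow, Real.log_pow, Real.log_pow, Real.log_pow] at h
    push_cast [Nat.cast_sub hab] at h
    nlinarith
  · have := lprod_pos hpos (Prod.fst : ℤ × ℤ → ℤ)
    have := lprod_pos hpos (id : ℤ × ℤ → ℤ × ℤ)
    exact Nat.cast_pos.2 (by positivity)

lemma fibre_gap {L : List ((ℤ × ℤ) × ℕ)} (hwf : Wellformed L) :
    0 < 2 * ent (L.map Prod.fst).toFinset (weight L) Prod.fst -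
        ent (L.map Prod.fst).toFinset (weight L) id := by
  have ex := mul_ent hwf (Prod.fst : ℤ × ℤ → ℤ)
  have ei := mul_ent hwf (id : ℤ × ℤ → ℤ × ℤ)
  obtain ⟨-, hpos, hM, hlt⟩ := hwf
  have hM' : (0 : ℝ) < total L := Nat.cast_pos.2 hM
  have hx : (0 : ℝ) < lprod L (Prod.fst : ℤ × ℤ → ℤ) := Nat.cast_pos.2 (lprod_pos hpos _)
  have hi : (0 : ℝ) < lprod L (id : ℤ × ℤ → ℤ × ℤ) := Nat.cast_pos.2 (lprod_pos hpos _)
  have h := Real.log_lt_log (Nat.cast_pos.2 (pow_pos (lprod_pos hpos _) 2)) (Nat.cast_lt (α := ℝ).2 hlt)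
  push_cast at h
  rw [Real.log_mul (by positivity) hi.ne', Real.log_pow, Real.log_pow] at h
  push_cast at h
  by_contra hcon
  push Not at hcon
  nlinarith

/-- Weights with gains `aₖ / bₖ` give unboundedness where `∑ (aₖ / bₖ) / pₖ > 1`. -/
theorem not_boundedAt_of_gains (L : List ((ℤ × ℤ) × ℕ)) (hwf : Wellformed L)
    {a₁ b₁ a₂ b₂ a₃ b₃ : ℕ} (g₁ : Gains L 1 a₁ b₁) (g₂ : Gains L 2 a₂ b₂) (g₃ : Gains L 3 a₃ b₃)
    (hb₁ : 0 < b₁) (hb₂ : 0 < b₂) (hb₃ : 0 < b₃)
    {p₁ p₂ p₃ r : ℝ≥0∞} (h₁ : 1 < p₁) (h₂ : 1 < p₂) (h₃ : 1 < p₃) (hr : r ≠ 0) (hr1 : r ≤ 1)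
    (hsum : r⁻¹ = p₁⁻¹ + p₂⁻¹ + p₃⁻¹)
    (hcond : 1 < (a₁ : ℝ) / b₁ * p₁.toReal⁻¹ + (a₂ : ℝ) / b₂ * p₂.toReal⁻¹ +
      (a₃ : ℝ) / b₃ * p₃.toReal⁻¹) :
    ¬ BoundedAt p₁ p₂ p₃ r := by
  have hgap := fibre_gap hwf
  have e₁ := gains_spec hwf g₁
  have e₂ := gains_spec hwf g₂
  have e₃ := gains_spec hwf g₃
  obtain ⟨hnd, hpos, hM, -⟩ := hwf
  set G := (L.map Prod.fst).toFinset
  set w := weight L
  have hw : ∀ p ∈ G, 0 < w p := by
    intro p hp
    obtain ⟨e, he, rfl⟩ := List.mem_map.1 (List.mem_toFinset.1 hp)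
    exact div_pos (Nat.cast_pos.2 (fib_pos hpos id he)) (Nat.cast_pos.2 hM)
  have hsum1 : ∑ p ∈ G, w p = 1 := by
    have := sum_weight hnd fun _ => (1 : ℝ)
    simp only [mul_one] at this
    rw [this, div_eq_one_iff_eq (Nat.cast_ne_zero.2 hM.ne'), total, Nat.cast_list_sum, List.map_map]
    rfl
  refine not_boundedAt_of_weights G w hw hsum1 (by linarith) h₁ h₂ h₃ hr hr1 hsum ?_
  set u₁ := p₁.toReal⁻¹
  set u₂ := p₂.toReal⁻¹
  set u₃ := p₃.toReal⁻¹
  have hu₁ : 0 ≤ u₁ := by positivity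
  have hu₂ : 0 ≤ u₂ := by positivity
  have hu₃ : 0 ≤ u₃ := by positivity
  have hS : r.toReal⁻¹ = u₁ + u₂ + u₃ := by
    have := congrArg ENNReal.toReal hsum
    rw [ENNReal.toReal_add, ENNReal.toReal_add] at this
    · simpa [ENNReal.toReal_inv, u₁, u₂, u₃] using this
    all_goals simp [(zero_lt_one.trans h₁).ne', (zero_lt_one.trans h₂).ne', (zero_lt_one.trans h₃).ne']
  rw [hS]
  have f₁ : (a₁ : ℝ) / b₁ * (2 * ent G w Prod.fst - ent G w id) ≤
      ent G w Prod.fst - ent G w (proj 1) := by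
    rw [div_mul_eq_mul_div, div_le_iff₀ (Nat.cast_pos.2 hb₁)]
    linarith
  have f₂ : (a₂ : ℝ) / b₂ * (2 * ent G w Prod.fst - ent G w id) ≤
      ent G w Prod.fst - ent G w (proj 2) := by
    rw [div_mul_eq_mul_div, div_le_iff₀ (Nat.cast_pos.2 hb₂)]
    linarith
  have f₃ : (a₃ : ℝ) / b₃ * (2 * ent G w Prod.fst - ent G w id) ≤
      ent G w Prod.fst - ent G w (proj 3) := by
    rw [div_mul_eq_mul_div, div_le_iff₀ (Nat.cast_pos.2 hb₃)]
    linarith
  have hbig := mul_lt_mul_of_pos_right hcond hgap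
  nlinarith [mul_le_mul_of_nonneg_left f₁ hu₁, mul_le_mul_of_nonneg_left f₂ hu₂,
    mul_le_mul_of_nonneg_left f₃ hu₃]

end Vale.Agent.P141
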